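import Vale.Agent.P153.R2.R1.Wolff
import Mathlib.Analysis.Complex.OpenMapping
import Mathlib.Topology.Connected.Basic
import Mathlib.MeasureTheory.Measure.Lebesgue.VolumeOfBalls

/-!
# P167, block LA: the length-area lemma for crossings of conformal half-annuli

If `ψ` is injective and holomorphic on the upper half-plane, and `b / a` is larger than an absolute
constant, then there is a Euclidean annulus `{2 d ≤ |p - z| ≤ C₀ d}` such that every connected
subset `T` of the image which joins the images of the half-disc `|w - x| ≤ a` and of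
`|w - x| ≥ b` joins its two boundary circles.
-/

open Set Topology Metric MeasureTheory Filter
open scoped ENNReal Real

namespace Vale.Agent.P167.H174

open Vale.Agent.P153.R2.R1

/-- the upper half-plane -/
abbrev HP : Set ℂ := {z : ℂ | 0 < z.im}

theorem isOpen_HP : IsOpen HP := isOpen_lt continuous_const Complex.continuous_im

/-- the point of the circle around `x` -/
noncomputable def pt (x s θ : ℝ) : ℂ := (x : ℂ) + s * Complex.exp (θ * Complex.I)

theorem dist_pt {x s : ℝ} (hs : 0 < s) (θ : ℝ) : dist (pt x s θ) (x : ℂ) = s := by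
  rw [pt, dist_eq_norm, add_sub_cancel_left, norm_mul, Complex.norm_exp_ofReal_mul_I,
    Complex.norm_real, Real.norm_of_nonneg hs.le, mul_one]

theorem pt_mem {x s θ : ℝ} (hs : 0 < s) (hθ : θ ∈ Ioo 0 π) : pt x s θ ∈ HP := by
  show 0 < (pt x s θ).im
  rw [pt, Complex.add_im, Complex.ofReal_im, zero_add, Complex.im_ofReal_mul,
    Complex.exp_ofReal_mul_I_im]
  exact mul_pos hs (Real.sin_pos_of_mem_Ioo hθ)

theorem pt_mem_iff {x s θ : ℝ} (hs : 0 < s) (hθ : θ ∈ Ioo (-π) π) :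
    pt x s θ ∈ HP ↔ θ ∈ Ioo 0 π := by
  refine ⟨fun h => ?_, pt_mem hs⟩
  have h1 : 0 < s * Real.sin θ := by
    have : 0 < (pt x s θ).im := h
    rwa [pt, Complex.add_im, Complex.ofReal_im, zero_add, Complex.im_ofReal_mul,
      Complex.exp_ofReal_mul_I_im] at this
  have h2 : 0 < Real.sin θ := (mul_pos_iff_of_pos_left hs).1 h1
  refine ⟨?_, hθ.2⟩
  by_contra hn
  exact absurd h2 (not_lt.2 (Real.sin_nonpos_of_nonpos_of_neg_pi_le (not_lt.1 hn) hθ.1.le))

theorem exists_pt {x s : ℝ} {w : ℂ} (hw : w ∈ HP) (hd : dist w (x : ℂ) = s) :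
    ∃ θ ∈ Ioo 0 π, pt x s θ = w := by
  have h1 : ‖w - x‖ = s := by rw [← dist_eq_norm]; exact hd
  have h2 : 0 < (w - x).im := by
    rw [Complex.sub_im, Complex.ofReal_im, sub_zero]; exact hw
  refine ⟨(w - x).arg, ⟨?_, ?_⟩, ?_⟩
  · rcases (Complex.arg_nonneg_iff.2 h2.le).lt_or_eq with h | h
    · exact h
    · exfalso
      have := Complex.arg_eq_zero_iff.1 h.symm
      rw [this.2] at h2
      exact lt_irrefl _ h2
  · exact Complex.arg_lt_pi_iff.2 (Or.inr h2.ne')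
  · rw [pt, ← h1, Complex.norm_mul_exp_arg_mul_I]
    ring

theorem continuous_pt (x s : ℝ) : Continuous (pt x s) := by
  unfold pt
  fun_prop

/-- first point where a continuous function reaches a level -/
theorem exists_first {u : ℝ → ℝ} {a b q : ℝ} (hab : a ≤ b) (hu : ContinuousOn u (Icc a b))
    (ha : u a ≤ q) (hb : q ≤ u b) : ∃ c ∈ Icc a b, u c = q ∧ ∀ t ∈ Icc a c, u t ≤ q := by
  have hS : IsCompact (Icc a b ∩ u ⁻¹' {q}) :=
    isCompact_Icc.of_isClosed_subset (hu.preimage_isClosed_of_isClosed isClosed_Icc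
      isClosed_singleton) inter_subset_left
  have hne : (Icc a b ∩ u ⁻¹' {q}).Nonempty := by
    obtain ⟨c, hc, h⟩ := intermediate_value_Icc hab hu ⟨ha, hb⟩
    exact ⟨c, hc, h⟩
  obtain ⟨c, ⟨hc, hcq⟩, hleast⟩ := hS.exists_isLeast hne
  refine ⟨c, hc, hcq, fun t ht => ?_⟩
  by_contra hlt
  push Not at hlt
  obtain ⟨c', hc', h'⟩ := intermediate_value_Icc ht.1
    (hu.mono (Icc_subset_Icc_right (ht.2.trans hc.2))) ⟨ha, hlt.le⟩
  have h3 : c ≤ c' := hleast ⟨⟨hc'.1, hc'.2.trans (ht.2.trans hc.2)⟩, h'⟩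
  have h4 : t = c := le_antisymm ht.2 (h3.trans hc'.2)
  rw [h4, hcq] at hlt
  exact lt_irrefl _ hlt

theorem exists_first' {u : ℝ → ℝ} {a b q : ℝ} (hu : ContinuousOn u (uIcc a b))
    (ha : u a ≤ q) (hb : q ≤ u b) : ∃ c ∈ uIcc a b, u c = q ∧ ∀ t ∈ uIcc a c, u t ≤ q := by
  rcases le_total a b with hab | hab
  · rw [uIcc_of_le hab] at hu ⊢
    obtain ⟨c, hc, h1, h2⟩ := exists_first hab hu ha hb
    refine ⟨c, hc, h1, ?_⟩
    rwa [uIcc_of_le hc.1]
  · rw [uIcc_of_ge hab] at hu ⊢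
    have hu' : ContinuousOn (fun t => u (-t)) (Icc (-a) (-b)) :=
      hu.comp continuous_neg.continuousOn fun t ht => ⟨by linarith [ht.2], by linarith [ht.1]⟩
    obtain ⟨c, hc, h1, h2⟩ := exists_first (u := fun t => u (-t)) (neg_le_neg hab) hu'
      (by simpa using ha) (by simpa using hb)
    refine ⟨-c, ⟨by linarith [hc.2], by linarith [hc.1]⟩, h1, ?_⟩
    rw [uIcc_of_ge (by linarith [hc.1])]
    intro t ht
    have := h2 (-t) ⟨by linarith [ht.2], by linarith [ht.1]⟩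
    simpa using this

variable {ψ : ℂ → ℂ}

/-- distances of images of points of a half-circle are bounded by its length -/
theorem enorm_le_len {U : Set ℂ} (hU : IsOpen U) (hψ : DifferentiableOn ℂ ψ U) {x s : ℝ}
    (hs : 0 < s) {θ₁ θ₂ : ℝ} (h1 : θ₁ ∈ Ioo 0 π) (h2 : θ₂ ∈ Ioo 0 π)
    (harc : ∀ θ ∈ uIcc θ₁ θ₂, pt x s θ ∈ U) :
    ‖ψ (pt x s θ₂) - ψ (pt x s θ₁)‖ₑ ≤ len U ψ x s := by
  rcases le_total θ₁ θ₂ with h | h
  · rw [uIcc_of_le h] at harc
    exact dist_le_len hU hψ (x : ℂ) hs h (by linarith [h1.1, Real.pi_pos]) h2.2 harc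
  · rw [uIcc_of_ge h] at harc
    have := dist_le_len hU hψ (x : ℂ) hs h (by linarith [h2.1, Real.pi_pos]) h1.2 harc
    rwa [enorm_sub_rev] at this

theorem dist_le_len' (hψ : DifferentiableOn ℂ ψ HP) {x s : ℝ} (hs : 0 < s) {w w' : ℂ}
    (hw : w ∈ HP) (hw' : w' ∈ HP) (hd : dist w (x : ℂ) = s) (hd' : dist w' (x : ℂ) = s) :
    ENNReal.ofReal (dist (ψ w) (ψ w')) ≤ len HP ψ x s := by
  obtain ⟨θ₁, h1, rfl⟩ := exists_pt hw hd
  obtain ⟨θ₂, h2, rfl⟩ := exists_pt hw' hd'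
  have := enorm_le_len isOpen_HP hψ (x := x) hs h2 h1 (fun θ hθ => pt_mem hs ⟨?_, ?_⟩)
  · rwa [← ofReal_norm, ← dist_eq_norm] at this
  · rcases le_total θ₁ θ₂ with h | h
    · rw [uIcc_of_ge h] at hθ; exact h1.1.trans_le hθ.1
    · rw [uIcc_of_le h] at hθ; exact h2.1.trans_le hθ.1
  · rcases le_total θ₁ θ₂ with h | h
    · rw [uIcc_of_ge h] at hθ; exact hθ.2.trans_lt h2.2
    · rw [uIcc_of_le h] at hθ; exact hθ.2.trans_lt h1.2

/-- The part of the image of the half-circle in a disc is long. -/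
theorem local_len (hψ : DifferentiableOn ℂ ψ HP) {x s : ℝ} (hs : 0 < s) {z : ℂ} {r d : ℝ}
    (hd : 0 < d) {w : ℂ} (hw : w ∈ HP) (hws : dist w (x : ℂ) = s) (hwr : dist (ψ w) z ≤ r)
    (hlen : ENNReal.ofReal d ≤ len HP ψ x s) :
    ENNReal.ofReal d ≤ len (HP ∩ ψ ⁻¹' ball z (r + 2 * d)) ψ x s := by
  set U' : Set ℂ := HP ∩ ψ ⁻¹' ball z (r + 2 * d) with hU'
  have hU'o : IsOpen U' := hψ.continuousOn.isOpen_inter_preimage isOpen_HP isOpen_ball
  obtain ⟨θ₁, h1, rfl⟩ := exists_pt hw hws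
  by_cases hall : ∀ θ ∈ Ioo 0 π, dist (ψ (pt x s θ)) z < r + d
  · -- the whole curve stays in the disc
    refine hlen.trans (le_of_eq ?_)
    unfold len
    refine setLIntegral_congr_fun measurableSet_Ioo fun θ hθ => ?_
    have e : dens HP ψ ((x : ℂ) + s * Complex.exp (θ * Complex.I)) =
        dens U' ψ ((x : ℂ) + s * Complex.exp (θ * Complex.I)) := by
      unfold dens
      by_cases hm : pt x s θ ∈ HP
      · have hm' : pt x s θ ∈ U' := by
          refine ⟨hm, ?_⟩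
          have := hall θ ((pt_mem_iff hs hθ).1 hm)
          rw [mem_preimage, mem_ball]
          linarith
        rw [show (x : ℂ) + s * Complex.exp (θ * Complex.I) = pt x s θ from rfl,
          indicator_of_mem hm, indicator_of_mem hm']
      · have hm' : pt x s θ ∉ U' := fun h => hm h.1
        rw [show (x : ℂ) + s * Complex.exp (θ * Complex.I) = pt x s θ from rfl,
          indicator_of_notMem hm, indicator_of_notMem hm']
    simp only [e]
  · push Not at hall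
    obtain ⟨θ₂, h2, h2d⟩ := hall
    have hsub : ∀ θ ∈ uIcc θ₁ θ₂, θ ∈ Ioo 0 π := by
      intro θ hθ
      rcases le_total θ₁ θ₂ with h | h
      · rw [uIcc_of_le h] at hθ; exact ⟨h1.1.trans_le hθ.1, hθ.2.trans_lt h2.2⟩
      · rw [uIcc_of_ge h] at hθ; exact ⟨h2.1.trans_le hθ.1, hθ.2.trans_lt h1.2⟩
    have hcont : ContinuousOn (fun θ => dist (ψ (pt x s θ)) z) (uIcc θ₁ θ₂) := by
      have h5 : ContinuousOn (fun θ => ψ (pt x s θ)) (uIcc θ₁ θ₂) :=
        hψ.continuousOn.comp (continuous_pt x s).continuousOn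
          fun θ hθ => pt_mem hs (hsub θ hθ)
      exact continuous_dist.comp_continuousOn (h5.prodMk continuousOn_const)
    obtain ⟨c, hc, hc1, hc2⟩ := exists_first' (q := r + d) hcont (by linarith) h2d
    have harc : ∀ θ ∈ uIcc θ₁ c, pt x s θ ∈ U' := by
      intro θ hθ
      refine ⟨pt_mem hs (hsub θ (uIcc_subset_uIcc_left hc hθ)), ?_⟩
      have := hc2 θ hθ
      rw [mem_preimage, mem_ball]
      linarith
    have h3 := enorm_le_len hU'o (hψ.mono inter_subset_left) hs h1 (hsub c hc) harc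
    refine le_trans ?_ h3
    rw [← ofReal_norm]
    apply ENNReal.ofReal_le_ofReal
    rw [← dist_eq_norm]
    have h4 := dist_triangle (ψ (pt x s c)) (ψ (pt x s θ₁)) z
    linarith

/-- an injective holomorphic map on the half-plane pulls back preconnected sets -/
theorem preconn_preimage (hψ : DifferentiableOn ℂ ψ HP) (hi : InjOn ψ HP) {T : Set ℂ}
    (hT : IsPreconnected T) (hTs : T ⊆ ψ '' HP) : IsPreconnected (HP ∩ ψ ⁻¹' T) := by
  have hconn : IsPreconnected HP := (convex_halfSpace_im_gt 0).isPreconnected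
  have hopen : ∀ s ⊆ HP, IsOpen s → IsOpen (ψ '' s) := by
    rcases (hψ.analyticOnNhd isOpen_HP).is_constant_or_isOpen hconn with h | h
    · exfalso
      obtain ⟨w, hw⟩ := h
      have h1 : (Complex.I : ℂ) ∈ HP := by simp
      have h2 : (2 * Complex.I : ℂ) ∈ HP := by simp
      have := hi h1 h2 ((hw _ h1).trans (hw _ h2).symm)
      have h3 := congrArg Complex.im this
      simp at h3
    · exact h
  have hom : IsOpenMap (fun w : HP => ψ w) := by
    intro s hs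
    obtain ⟨V, hV, rfl⟩ := isOpen_induced_iff.1 hs
    have e : (fun w : HP => ψ w) '' (Subtype.val ⁻¹' V) = ψ '' (HP ∩ V) := by
      ext y
      constructor
      · rintro ⟨w, hw, rfl⟩
        exact ⟨w, ⟨w.2, hw⟩, rfl⟩
      · rintro ⟨w, hw, rfl⟩
        exact ⟨⟨w, hw.1⟩, hw.2, rfl⟩
    rw [e]
    exact hopen _ inter_subset_left (isOpen_HP.inter hV)
  have hinj : Function.Injective (fun w : HP => ψ w) := fun w w' h =>
    Subtype.ext (hi w.2 w'.2 h)
  have hr : T ⊆ range (fun w : HP => ψ w) := by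
    intro y hy
    obtain ⟨w, hw, rfl⟩ := hTs hy
    exact ⟨⟨w, hw⟩, rfl⟩
  have h := (hT.preimage_of_isOpenMap hinj hom hr).image Subtype.val
    continuous_subtype_val.continuousOn
  convert h using 1
  ext w
  constructor
  · intro hw
    exact ⟨⟨w, hw.1⟩, hw.2, rfl⟩
  · rintro ⟨w', hw', rfl⟩
    exact ⟨w'.2, hw'⟩

/-- a connected set crossing the half-annulus meets all half-circles -/
theorem exists_on_circle (hψ : DifferentiableOn ℂ ψ HP) (hi : InjOn ψ HP) {T : Set ℂ}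
    (hT : IsPreconnected T) (hTs : T ⊆ ψ '' HP) {x s : ℝ} {w₁ w₂ : ℂ} (h1 : w₁ ∈ HP)
    (h2 : w₂ ∈ HP) (h1T : ψ w₁ ∈ T) (h2T : ψ w₂ ∈ T) (h1s : dist w₁ (x : ℂ) ≤ s)
    (h2s : s ≤ dist w₂ (x : ℂ)) : ∃ w ∈ HP, dist w (x : ℂ) = s ∧ ψ w ∈ T := by
  have hpc := preconn_preimage hψ hi hT hTs
  have hcont : ContinuousOn (fun w : ℂ => dist w (x : ℂ)) (HP ∩ ψ ⁻¹' T) :=
    (continuous_id.dist continuous_const).continuousOn
  obtain ⟨w, hw, h⟩ := hpc.intermediate_value (a := w₁) (b := w₂) ⟨h1, h1T⟩ ⟨h2, h2T⟩ hcont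
    ⟨h1s, h2s⟩
  exact ⟨w, hw.1, h, hw.2⟩

/-- **Length-area lemma** for crossings of a conformal half-annulus. -/
theorem length_area (hψ : DifferentiableOn ℂ ψ HP) (hi : InjOn ψ HP)
    (hfin : volume (ψ '' HP) ≠ ∞) {x a b C₀ : ℝ} (ha : 0 < a) (hab : a < b) (hC : 0 ≤ C₀)
    (hlog : 2 * π ^ 2 * (C₀ + 2) ^ 2 < Real.log (b / a)) :
    ∃ (z : ℂ) (d : ℝ), 0 < d ∧
      (∀ δ : ℝ, (∀ s ∈ Ioo a b, ENNReal.ofReal δ ≤ len HP ψ x s) → δ ≤ d) ∧
      ∀ T ⊆ ψ '' HP, IsPreconnected T → (∃ w ∈ HP, dist w (x : ℂ) ≤ a ∧ ψ w ∈ T) →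
        (∃ w ∈ HP, b ≤ dist w (x : ℂ) ∧ ψ w ∈ T) →
        (∃ p ∈ T, dist p z < 2 * d) ∧ ∃ q ∈ T, C₀ * d ≤ dist q z := by
  have hlogpos : 0 < Real.log (b / a) := Real.log_pos (by rwa [lt_div_iff₀ ha, one_mul])
  set m : ℝ≥0∞ := ⨅ s ∈ Ioo a b, len HP ψ x s with hm
  -- finiteness
  have hmfin : m ≠ ∞ := by
    obtain ⟨A, hA⟩ : ∃ A : ℝ, A = (volume (ψ '' HP)).toReal := ⟨_, rfl⟩
    have hA0 : 0 ≤ A := by rw [hA]; exact ENNReal.toReal_nonneg
    have hvol : volume (ψ '' HP) ≤ ENNReal.ofReal A := by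
      rw [hA, ENNReal.ofReal_toReal hfin]
    obtain ⟨s, hs, hlt⟩ := exists_short isOpen_HP hψ hi hA0 hvol (x : ℂ) ha hab
      (K := (2 * π * A + 1) / Real.log (b / a)) (by
        rw [div_mul_cancel₀ _ hlogpos.ne']; linarith)
    intro htop
    have h1 : m ≤ len HP ψ x s := iInf₂_le s hs
    rw [htop, top_le_iff] at h1
    rw [h1] at hlt
    simp at hlt
  -- positivity
  have hmpos : 0 < m := by
    have hcont : ContinuousOn (fun s : ℝ => dist (ψ (pt x s (π / 4))) (ψ (pt x s (3 * π / 4))))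
        (Icc a b) := by
      have h4 : ∀ θ ∈ Ioo 0 π, ContinuousOn (fun s : ℝ => ψ (pt x s θ)) (Icc a b) := by
        intro θ hθ
        refine hψ.continuousOn.comp ?_ fun s hs => pt_mem (ha.trans_le hs.1) hθ
        unfold pt
        fun_prop
      exact continuous_dist.comp_continuousOn ((h4 _ ⟨by positivity, by linarith [Real.pi_pos]⟩).prodMk
        (h4 _ ⟨by positivity, by linarith [Real.pi_pos]⟩))
    obtain ⟨s₀, hs₀, hmin⟩ := isCompact_Icc.exists_isMinOn ⟨a, left_mem_Icc.2 hab.le⟩ hcont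
    have hs₀' : 0 < s₀ := ha.trans_le hs₀.1
    have hpos : 0 < dist (ψ (pt x s₀ (π / 4))) (ψ (pt x s₀ (3 * π / 4))) := by
      rw [dist_pos]
      intro h
      have h1 := hi (pt_mem hs₀' ⟨by positivity, by linarith [Real.pi_pos]⟩)
        (pt_mem hs₀' ⟨by positivity, by linarith [Real.pi_pos]⟩) h
      have h2 := congrArg Complex.re h1
      rw [pt, pt, Complex.add_re, Complex.add_re, Complex.re_ofReal_mul, Complex.re_ofReal_mul,
        Complex.exp_ofReal_mul_I_re, Complex.exp_ofReal_mul_I_re] at h2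
      have h3 : Real.cos (3 * π / 4) = - Real.cos (π / 4) := by
        rw [show 3 * π / 4 = π - π / 4 by ring, Real.cos_pi_sub]
      have h5 : 0 < Real.cos (π / 4) := Real.cos_pos_of_mem_Ioo
        ⟨by linarith [Real.pi_pos], by linarith [Real.pi_pos]⟩
      rw [h3] at h2
      have : s₀ * Real.cos (π / 4) = 0 := by linarith
      exact absurd this (mul_pos hs₀' h5).ne'
    refine lt_of_lt_of_le (ENNReal.ofReal_pos.2 hpos) (le_iInf₂ fun s hs => ?_)
    have hs0 : 0 < s := ha.trans hs.1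
    refine le_trans (ENNReal.ofReal_le_ofReal (hmin ⟨hs.1.le, hs.2.le⟩)) ?_
    exact dist_le_len' hψ hs0 (pt_mem hs0 ⟨by positivity, by linarith [Real.pi_pos]⟩)
      (pt_mem hs0 ⟨by positivity, by linarith [Real.pi_pos]⟩) (dist_pt hs0 _) (dist_pt hs0 _)
  obtain ⟨d, hd⟩ : ∃ d : ℝ, d = m.toReal := ⟨_, rfl⟩
  have hd0 : 0 < d := by rw [hd]; exact ENNReal.toReal_pos hmpos.ne' hmfin
  have hmd : ENNReal.ofReal d = m := by rw [hd, ENNReal.ofReal_toReal hmfin]
  have hlen : ∀ s ∈ Ioo a b, ENNReal.ofReal d ≤ len HP ψ x s := fun s hs => by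
    rw [hmd]; exact iInf₂_le s hs
  -- a short half-circle
  obtain ⟨s₀, hs₀, hshort⟩ : ∃ s ∈ Ioo a b, len HP ψ x s < ENNReal.ofReal (2 * d) := by
    have h1 : m < ENNReal.ofReal (2 * d) := by
      rw [← hmd]
      exact (ENNReal.ofReal_lt_ofReal_iff (by linarith)).2 (by linarith)
    rw [hm, iInf_lt_iff] at h1
    obtain ⟨s, hs⟩ := h1
    rw [iInf_lt_iff] at hs
    obtain ⟨hs1, hs2⟩ := hs
    exact ⟨s, hs1, hs2⟩
  have hs₀' : 0 < s₀ := ha.trans hs₀.1
  have hpi2 : π / 2 ∈ Ioo 0 π := ⟨by positivity, by linarith [Real.pi_pos]⟩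
  refine ⟨ψ (pt x s₀ (π / 2)), d, hd0, fun δ hδ => ?_, fun T hTs hT h1 h2 => ?_⟩
  · by_contra hlt
    push Not at hlt
    have h1 : ENNReal.ofReal δ ≤ m := le_iInf₂ hδ
    rw [← hmd, ENNReal.ofReal_le_ofReal_iff hd0.le] at h1
    linarith
  · obtain ⟨w₁, hw₁, hw₁d, hw₁T⟩ := h1
    obtain ⟨w₂, hw₂, hw₂d, hw₂T⟩ := h2
    constructor
    · obtain ⟨w, hw, hws, hwT⟩ := exists_on_circle hψ hi hT hTs hw₁ hw₂ hw₁T hw₂T
        (hw₁d.trans hs₀.1.le) (hs₀.2.le.trans hw₂d)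
      refine ⟨ψ w, hwT, ?_⟩
      have h3 := (dist_le_len' hψ hs₀' hw (pt_mem hs₀' hpi2) hws (dist_pt hs₀' _)).trans_lt hshort
      exact (ENNReal.ofReal_lt_ofReal_iff (by linarith)).1 h3
    · by_contra hcon
      push Not at hcon
      set z : ℂ := ψ (pt x s₀ (π / 2)) with hz
      have hU'o : IsOpen (HP ∩ ψ ⁻¹' ball z (C₀ * d + 2 * d)) :=
        hψ.continuousOn.isOpen_inter_preimage isOpen_HP isOpen_ball
      have hA0 : 0 ≤ π * (C₀ * d + 2 * d) ^ 2 := by positivity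
      have hr0 : 0 ≤ C₀ * d + 2 * d := by positivity
      have hvol : volume (ψ '' (HP ∩ ψ ⁻¹' ball z (C₀ * d + 2 * d))) ≤
          ENNReal.ofReal (π * (C₀ * d + 2 * d) ^ 2) := by
        refine (measure_mono (t := ball z (C₀ * d + 2 * d)) ?_).trans (le_of_eq ?_)
        · rintro _ ⟨w, hw, rfl⟩
          exact hw.2
        · rw [Complex.volume_ball, ENNReal.ofReal_mul Real.pi_pos.le, ENNReal.ofReal_pow hr0,
            mul_comm]
          congr 1
          rw [ENNReal.ofReal, Real.toNNReal_of_nonneg Real.pi_pos.le]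
          rfl
      obtain ⟨s, hs, hlt⟩ := exists_short hU'o (hψ.mono inter_subset_left)
        (hi.mono inter_subset_left) hA0 hvol (x : ℂ) ha hab (K := d ^ 2) (by
          have : 0 < d ^ 2 := by positivity
          calc 2 * π * (π * (C₀ * d + 2 * d) ^ 2) = d ^ 2 * (2 * π ^ 2 * (C₀ + 2) ^ 2) := by ring
            _ < d ^ 2 * Real.log (b / a) := by gcongr)
      have hs0 : 0 < s := ha.trans hs.1
      obtain ⟨w, hw, hws, hwT⟩ := exists_on_circle hψ hi hT hTs hw₁ hw₂ hw₁T hw₂T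
        (hw₁d.trans hs.1.le) (hs.2.le.trans hw₂d)
      have h3 := local_len hψ hs0 hd0 hw hws (hcon _ hwT).le (hlen s hs)
      have h4 : ENNReal.ofReal (d ^ 2) ≤
          len (HP ∩ ψ ⁻¹' ball z (C₀ * d + 2 * d)) ψ x s ^ 2 := by
        rw [ENNReal.ofReal_pow hd0.le]
        exact pow_le_pow_left₀ bot_le h3 2
      exact absurd hlt (not_lt.2 h4)

end Vale.Agent.P167.H174
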