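import Vale.Agent.P167.H756.Glue2

/-!
# P167, block CG6: crossings of conformal half-annuli, uniformly over the class

`crsw_geo`: for the conformal maps `Ψ` of the half-plane which are in the class `Cls R c` (through the
standard chart of the disc), and `b / a` larger than an absolute constant depending on `C₀` only, there is a
Euclidean annulus `{2 d ≤ |p - z| ≤ C₀ d}`, `d ≥ d₀`, such that every connected subset of the image
which joins the image of `|w - x| ≤ a` and the image of `|w - x| ≥ b` crosses it.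
-/

open Set Topology Metric MeasureTheory Filter
open scoped ENNReal Real ComplexConjugate

namespace Vale.Agent.P167.H174

open Vale.Agent.P153.R2.R1 Vale.Agent.P153.R2.OBSV Vale.Agent.P167.H756
open Vale.Agent.P153.R2.L1 (HH mem_HH isOpen_HH)

/-- The half-plane map is in the class of `756`. -/
def HCls (R c : ℝ) (Ψ : ℂ → ℂ) : Prop := Cls R c (fun w => Ψ (imb 1 Complex.I w))

theorem HP_eq : (HP : Set ℂ) = HH := rfl

theorem F_mb (Ψ : ℂ → ℂ) {z : ℂ} (hz : 0 ≤ z.im) :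
    (fun w => Ψ (imb 1 Complex.I w)) (mb 1 Complex.I z) = Ψ z := by
  simp only
  rw [imb_mb norm_one (by simp) hz]

variable {R c : ℝ} {Ψ : ℂ → ℂ}

theorem HCls.diff (h : HCls R c Ψ) : DifferentiableOn ℂ Ψ HP := by
  have h1 : DifferentiableOn ℂ (fun z : ℂ => mb 1 Complex.I z) HP := fun z hz =>
    (mb_differentiableAt (by simp) (le_of_lt hz)).differentiableWithinAt
  have h2 : DifferentiableOn ℂ ((fun w => Ψ (imb 1 Complex.I w)) ∘ fun z : ℂ => mb 1 Complex.I z) HP :=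
    Cls.diff h |>.comp h1 fun z hz => mem_ball_zero_iff.2 (norm_mb_lt norm_one (by simp) hz)
  refine h2.congr fun z hz => ?_
  exact (F_mb Ψ (le_of_lt hz)).symm

theorem HCls.inj (h : HCls R c Ψ) : InjOn Ψ HP := by
  intro z hz z' hz' e
  have hI : 0 < Complex.I.im := by simp
  have m : ∀ z ∈ (HP : Set ℂ), mb 1 Complex.I z ∈ ball (0 : ℂ) 1 := fun z hz =>
    mem_ball_zero_iff.2 (norm_mb_lt norm_one hI hz)
  have h1 := Cls.inj h (m z hz) (m z' hz') (by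
    simp only [imb_mb norm_one hI (le_of_lt hz), imb_mb norm_one hI (le_of_lt hz')]; exact e)
  have h2 := congrArg (imb 1 Complex.I) h1
  rwa [imb_mb norm_one hI (le_of_lt hz), imb_mb norm_one hI (le_of_lt hz')] at h2

theorem HCls.img (_h : HCls R c Ψ) :
    (fun w => Ψ (imb 1 Complex.I w)) '' ball 0 1 = Ψ '' HP := hp_img (by simp) Ψ

theorem HCls.vol (h : HCls R c Ψ) : volume (Ψ '' HP) ≠ ∞ := by
  rw [← h.img]
  have h1 : (fun w => Ψ (imb 1 Complex.I w)) '' ball 0 1 ⊆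
      closedBall ((fun w => Ψ (imb 1 Complex.I w)) 0) R := by
    rintro _ ⟨w, hw, rfl⟩
    rw [mem_closedBall, dist_eq_norm]
    exact Cls.bdd h w hw
  exact ((measure_mono h1).trans_lt (isCompact_closedBall _ _).measure_lt_top).ne

theorem norm_mb_swap (z : ℂ) : ‖mb 1 Complex.I z‖ = ‖mb 1 z Complex.I‖ := by
  rw [norm_mb norm_one, norm_mb norm_one, norm_sub_rev, Complex.conj_I]
  congr 1
  rw [← RCLike.norm_conj (Complex.I - _), map_sub, Complex.conj_conj, Complex.conj_I, ← norm_neg]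
  congr 1
  ring

theorem mb_I_sub {z z' : ℂ} (hz : 0 ≤ z.im) (hz' : 0 ≤ z'.im) {M : ℝ} (h1 : ‖z‖ ≤ M)
    (h2 : ‖z'‖ ≤ M) : 2 * dist z z' / (1 + M) ^ 2 ≤ dist (mb 1 Complex.I z) (mb 1 Complex.I z') := by
  have h0 := add_I_ne hz
  have h0' := add_I_ne hz'
  have e : mb 1 Complex.I z - mb 1 Complex.I z' =
      2 * Complex.I * (z - z') / ((z + Complex.I) * (z' + Complex.I)) := by
    rw [mb, mb, Complex.conj_I, sub_neg_eq_add, sub_neg_eq_add]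
    field_simp
    ring
  rw [dist_eq_norm (mb _ _ _), e, norm_div, norm_mul, norm_mul, norm_mul, Complex.norm_I,
    ← dist_eq_norm]
  have h3 : ‖z + Complex.I‖ ≤ 1 + M := (norm_add_I_le z).trans (by linarith)
  have h3' : ‖z' + Complex.I‖ ≤ 1 + M := (norm_add_I_le z').trans (by linarith)
  have hM : 0 ≤ 1 + M := (norm_nonneg _).trans h3
  have h4 : 0 < ‖z + Complex.I‖ * ‖z' + Complex.I‖ :=
    mul_pos (norm_pos_iff.2 h0) (norm_pos_iff.2 h0')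
  have h5 : ‖z + Complex.I‖ * ‖z' + Complex.I‖ ≤ (1 + M) ^ 2 := by
    rw [sq]; gcongr
  have h6 : ‖(2 : ℂ)‖ = 2 := by norm_num
  rw [h6, mul_one]
  exact div_le_div_of_nonneg_left (by positivity) h4 h5

/-- Uniform separation in the half-plane. -/
theorem HCls.sep (hR : 0 < R) (hc : 0 < c) {η M s : ℝ} (hη : 0 < η) (hs : 0 < s) :
    ∃ δ > 0, ∀ Ψ : ℂ → ℂ, HCls R c Ψ → ∀ z z' : ℂ, η ≤ z.im → η ≤ z'.im → ‖z‖ ≤ M → ‖z'‖ ≤ M →
      s ≤ dist z z' → δ ≤ dist (Ψ z) (Ψ z') := by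
  by_cases hM : η ≤ M
  swap
  · refine ⟨1, one_pos, fun Ψ _ z _ h1 _ h2 _ _ => absurd ?_ hM⟩
    exact h1.trans ((Complex.im_le_norm z).trans h2)
  have hM0 : 0 < 1 + M := by linarith
  have hρ1 : √(1 - 4 * η / (1 + M) ^ 2) < 1 := by
    rw [Real.sqrt_lt' one_pos, one_pow, sub_lt_self_iff]
    positivity
  obtain ⟨δ, hδ, h⟩ := Cls.sep (R := R) (c := c) hR hc hρ1 (s := 2 * s / (1 + M) ^ 2)
    (by positivity)
  refine ⟨δ, hδ, fun Ψ hΨ z z' h1 h1' h2 h2' hs' => ?_⟩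
  have hz : 0 < z.im := hη.trans_le h1
  have hz' : 0 < z'.im := hη.trans_le h1'
  have m : ∀ z : ℂ, η ≤ z.im → ‖z‖ ≤ M →
      mb 1 Complex.I z ∈ closedBall (0 : ℂ) (√(1 - 4 * η / (1 + M) ^ 2)) := by
    intro z hz hz'
    rw [mem_closedBall_zero_iff, norm_mb_swap]
    exact norm_mb_le hη hz hz'
  have h3 := h _ hΨ _ (m z h1 h2) _ (m z' h1' h2') (le_trans (by gcongr)
    (mb_I_sub hz.le hz'.le h2 h2'))
  have hI : 0 < Complex.I.im := by simp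
  simp only [imb_mb norm_one hI hz.le, imb_mb norm_one hI hz'.le] at h3
  exact h3

/-- The images of the half-circles are long, uniformly. -/
theorem HCls.len_low (hR : 0 < R) (hc : 0 < c) {M a b : ℝ} (ha : 0 < a) :
    ∃ δ > 0, ∀ Ψ : ℂ → ℂ, HCls R c Ψ → ∀ x : ℝ, |x| ≤ M → ∀ s ∈ Icc a b,
      ENNReal.ofReal δ ≤ len HP Ψ x s := by
  obtain ⟨δ, hδ, h⟩ := HCls.sep (R := R) (c := c) hR hc (η := a / 2) (M := M + b) (s := a / 2)
    (by positivity) (by positivity)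
  refine ⟨δ, hδ, fun Ψ hΨ x hx s hs => ?_⟩
  have hs0 : 0 < s := ha.trans_le hs.1
  have hpi := Real.pi_pos
  have hn : ∀ θ : ℝ, ‖pt x s θ‖ ≤ M + b := by
    intro θ
    have h1 := dist_pt (x := x) hs0 θ
    rw [dist_eq_norm] at h1
    calc ‖pt x s θ‖ = ‖(pt x s θ - x) + (x : ℂ)‖ := by ring_nf
      _ ≤ ‖pt x s θ - x‖ + ‖(x : ℂ)‖ := norm_add_le _ _
      _ ≤ b + M := by
          rw [h1, Complex.norm_real, Real.norm_eq_abs]
          exact add_le_add hs.2 hx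
      _ = M + b := by ring
  have him : ∀ θ : ℝ, (pt x s θ).im = s * Real.sin θ := by
    intro θ
    rw [pt, Complex.add_im, Complex.ofReal_im, zero_add, Complex.im_ofReal_mul,
      Complex.exp_ofReal_mul_I_im]
  have hre : ∀ θ : ℝ, (pt x s θ).re = x + s * Real.cos θ := by
    intro θ
    rw [pt, Complex.add_re, Complex.ofReal_re, Complex.re_ofReal_mul, Complex.exp_ofReal_mul_I_re]
  have hsq : (1 : ℝ) / 2 ≤ √2 / 2 := by
    have : (1 : ℝ) ≤ √2 := by rw [Real.le_sqrt' one_pos]; norm_num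
    linarith
  have hd := dist_le_len' hΨ.diff hs0 (pt_mem (x := x) hs0 (θ := π / 4) ⟨by positivity, by linarith⟩)
    (pt_mem (x := x) hs0 (θ := π / 2) ⟨by positivity, by linarith⟩) (dist_pt hs0 _) (dist_pt hs0 _)
  refine le_trans (ENNReal.ofReal_le_ofReal ?_) hd
  refine h Ψ hΨ _ _ ?_ ?_ (hn _) (hn _) ?_
  · rw [him, Real.sin_pi_div_four]
    nlinarith [hs.1]
  · rw [him, Real.sin_pi_div_two]
    linarith [hs.1]
  · rw [dist_eq_norm]
    refine le_trans ?_ (Complex.abs_re_le_norm _)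
    rw [Complex.sub_re, hre, hre, Real.cos_pi_div_four, Real.cos_pi_div_two]
    refine le_trans ?_ (le_abs_self _)
    nlinarith [hs.1]

/-- **Crossings of conformal half-annuli**, uniformly over the class. -/
theorem crsw_geo (hR : 0 < R) (hc : 0 < c) {M a b C₀ : ℝ} (ha : 0 < a) (hab : a < b)
    (hC : 0 ≤ C₀) (hlog : 2 * π ^ 2 * (C₀ + 2) ^ 2 < Real.log (b / a)) :
    ∃ d₀ > 0, ∀ Ψ : ℂ → ℂ, HCls R c Ψ → ∀ x : ℝ, |x| ≤ M → ∃ (z : ℂ) (d : ℝ), d₀ ≤ d ∧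
      ∀ T ⊆ Ψ '' HP, IsPreconnected T → (∃ w ∈ HP, dist w (x : ℂ) ≤ a ∧ Ψ w ∈ T) →
        (∃ w ∈ HP, b ≤ dist w (x : ℂ) ∧ Ψ w ∈ T) →
        (∃ p ∈ T, dist p z < 2 * d) ∧ ∃ q ∈ T, C₀ * d ≤ dist q z := by
  obtain ⟨δ, hδ, h⟩ := HCls.len_low (R := R) (c := c) (M := M) (a := a) (b := b) hR hc ha
  refine ⟨δ, hδ, fun Ψ hΨ x hx => ?_⟩
  obtain ⟨z, d, -, h1, h2⟩ := length_area hΨ.diff hΨ.inj hΨ.vol (x := x) ha hab hC hlog
  exact ⟨z, d, h1 δ fun s hs => h Ψ hΨ x hx s ⟨hs.1.le, hs.2.le⟩, h2⟩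

/-- The half-plane maps of the domains of a Loewner chain are in the class. -/
theorem hcls_Ps {T R : ℝ} {Rd cd Y : ℝ} (hRd : 0 < Rd) (hcd : 0 < cd) (hY0 : 0 < Y)
    (hY : 8 * R ≤ Y) (hY2 : 64 * T ≤ Y ^ 2) :
    ∃ c > 0, ∀ ψ : ℂ → ℂ, HConf Rd cd Y ψ → ∀ (W : ℝ → ℝ) (t : ℝ), Drv T R W t →
      HCls Rd c (Ps ψ W t) := cls_FD hRd hcd hY0 hY hY2

/-- **Crossings of conformal half-annuli in the domains of a Loewner chain.** The set `T` joins a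
point `ψ z₁` with `|Z_t(z₁) - x| ≤ a` and a point `ψ z₂` with `|Z_t(z₂) - x| ≥ b`. -/
theorem crsw_Ps {T R : ℝ} {Rd cd Y : ℝ} (hRd : 0 < Rd) (hcd : 0 < cd) (hY0 : 0 < Y)
    (hY : 8 * R ≤ Y) (hY2 : 64 * T ≤ Y ^ 2) {M a b C₀ : ℝ} (ha : 0 < a) (hab : a < b)
    (hC : 0 ≤ C₀) (hlog : 2 * π ^ 2 * (C₀ + 2) ^ 2 < Real.log (b / a)) :
    ∃ d₀ > 0, ∀ ψ : ℂ → ℂ, HConf Rd cd Y ψ → ∀ (W : ℝ → ℝ) (t : ℝ), Drv T R W t →
      ∀ x : ℝ, |x| ≤ M → ∃ (z : ℂ) (d : ℝ), d₀ ≤ d ∧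
        ∀ A ⊆ ψ '' Vale.Agent.P164.loewnerDomain W t, IsPreconnected A →
          (∃ w ∈ Vale.Agent.P164.loewnerDomain W t,
            dist (Vale.Agent.P164.Zf W w t) (x : ℂ) ≤ a ∧ ψ w ∈ A) →
          (∃ w ∈ Vale.Agent.P164.loewnerDomain W t,
            b ≤ dist (Vale.Agent.P164.Zf W w t) (x : ℂ) ∧ ψ w ∈ A) →
          (∃ p ∈ A, dist p z < 2 * d) ∧ ∃ q ∈ A, C₀ * d ≤ dist q z := by
  obtain ⟨c, hc, h⟩ := hcls_Ps (T := T) (R := R) hRd hcd hY0 hY hY2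
  obtain ⟨d₀, hd₀, h'⟩ := crsw_geo (R := Rd) (c := c) (M := M) hRd hc ha hab hC hlog
  refine ⟨d₀, hd₀, fun ψ hψ W t H x hx => ?_⟩
  obtain ⟨z, d, hd, h2⟩ := h' _ (h ψ hψ W t H) x hx
  refine ⟨z, d, hd, fun A hA hAc h3 h4 => h2 A ?_ hAc ?_ ?_⟩
  · rw [HP_eq, Ps_img H]
    exact hA
  · obtain ⟨w, hw, hw1, hw2⟩ := h3
    exact ⟨_, Vale.Agent.P164.Zf_im_pos H.nn hw, hw1, by rw [Ps_Zf H ψ hw]; exact hw2⟩
  · obtain ⟨w, hw, hw1, hw2⟩ := h4
    exact ⟨_, Vale.Agent.P164.Zf_im_pos H.nn hw, hw1, by rw [Ps_Zf H ψ hw]; exact hw2⟩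

end Vale.Agent.P167.H174
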