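import Vale.Agent.P167.H174.Sum
import Vale.Agent.P153.R2.R1.Jordan
import Vale.Agent.P153.R2.TOP.Sep

/-!
# P167, block E0b: compact subsets of the domain are eventually enclosed
-/

open Set Filter Topology Metric Bornology

namespace Vale.Agent.P167.H174

open Vale.Agent.P167.E6 Vale.Agent.P153.R2.R1
open Vale.Agent.P153.R2.Final (dom circ toC IsUniformizer)
open P153.TOP

/-- a closed logarithm along the circle gives a logarithm on the circle -/
theorem logOn_circle {f : ℂ → ℂ} {ℓ : ℝ → ℂ} (hℓ : ContinuousOn ℓ (Icc 0 (2 * Real.pi)))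
    (h : ∀ t ∈ Icc 0 (2 * Real.pi), Complex.exp (ℓ t) = f (Complex.exp (t * Complex.I)))
    (h0 : ℓ 0 = ℓ (2 * Real.pi)) : LogOn (sphere (0 : ℂ) 1) f := by
  have hsurj : ∀ w ∈ sphere (0 : ℂ) 1, ∃ t ∈ Icc 0 (2 * Real.pi),
      Complex.exp (t * Complex.I) = w := by
    intro w hw
    have hw1 : ‖w‖ = 1 := mem_sphere_zero_iff_norm.1 hw
    have he : Complex.exp (w.arg * Complex.I) = w := by
      have := Complex.norm_mul_exp_arg_mul_I w
      rwa [hw1, Complex.ofReal_one, one_mul] at this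
    rcases le_or_gt 0 w.arg with h | h
    · exact ⟨w.arg, ⟨h, by linarith [Complex.arg_le_pi w, Real.pi_pos]⟩, he⟩
    · refine ⟨w.arg + 2 * Real.pi, ⟨by linarith [Complex.neg_pi_lt_arg w, Real.pi_pos],
        by linarith⟩, ?_⟩
      push_cast
      rw [add_mul, Complex.exp_add, Complex.exp_two_pi_mul_I, mul_one, he]
  classical
  let F : ℂ → ℂ := fun w => if hw : w ∈ sphere (0 : ℂ) 1 then ℓ (hsurj w hw).choose else 0
  have hF : ∀ t ∈ Icc 0 (2 * Real.pi), F (Complex.exp (t * Complex.I)) = ℓ t := by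
    intro t ht
    have hm : Complex.exp (t * Complex.I) ∈ sphere (0 : ℂ) 1 := by
      rw [mem_sphere_zero_iff_norm, Complex.norm_exp_ofReal_mul_I]
    simp only [F, hm, dite_true]
    obtain ⟨hs, hs'⟩ := (hsurj _ hm).choose_spec
    set s := (hsurj _ hm).choose
    obtain ⟨n, hn⟩ := Complex.exp_eq_exp_iff_exists_int.1 hs'
    have h3 : ((s : ℂ) - (t + n * (2 * Real.pi))) * Complex.I = 0 := by linear_combination hn
    have h4 := (mul_eq_zero.1 h3).resolve_right Complex.I_ne_zero
    have h5 : s = t + n * (2 * Real.pi) := by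
      have h6 : (s : ℂ) = ((t + n * (2 * Real.pi) : ℝ) : ℂ) := by
        push_cast
        exact sub_eq_zero.1 h4
      exact_mod_cast h6
    have hpi := Real.pi_pos
    have hn1 : n ≤ 1 := by
      by_contra hc
      push Not at hc
      have : (2 : ℝ) ≤ n := by exact_mod_cast hc
      nlinarith [hs.2, ht.1]
    have hn2 : -1 ≤ n := by
      by_contra hc
      push Not at hc
      have : (n : ℝ) ≤ -2 := by exact_mod_cast (by omega : n ≤ -2)
      nlinarith [hs.1, ht.2]
    have : n = -1 ∨ n = 0 ∨ n = 1 := by omega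
    rcases this with rfl | rfl | rfl
    · have e1 : t = 2 * Real.pi := by push_cast at h5; linarith [hs.1, ht.2]
      have e2 : s = 0 := by rw [h5, e1]; push_cast; ring
      rw [e2, e1, h0]
    · have e1 : s = t := by rw [h5]; push_cast; ring
      rw [e1]
    · have e1 : t = 0 := by push_cast at h5; linarith [hs.2, ht.1]
      have e2 : s = 2 * Real.pi := by rw [h5, e1]; push_cast; ring
      rw [e2, e1, h0]
  refine ⟨F, ?_, fun w hw => ?_⟩
  · rw [continuousOn_iff_isClosed]
    intro C hC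
    have hcomp : IsCompact (Icc 0 (2 * Real.pi) ∩ ℓ ⁻¹' C) :=
      isCompact_Icc.of_isClosed_subset (hℓ.preimage_isClosed_of_isClosed isClosed_Icc hC)
        inter_subset_left
    refine ⟨(fun t : ℝ => Complex.exp (t * Complex.I)) '' (Icc 0 (2 * Real.pi) ∩ ℓ ⁻¹' C),
      (hcomp.image (by fun_prop)).isClosed, ?_⟩
    ext w
    constructor
    · rintro ⟨hwC, hw⟩
      obtain ⟨t, ht, rfl⟩ := hsurj w hw
      refine ⟨⟨t, ⟨ht, ?_⟩, rfl⟩, hw⟩
      rw [mem_preimage, ← hF t ht]
      exact hwC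
    · rintro ⟨⟨t, ⟨ht, htC⟩, rfl⟩, hw⟩
      refine ⟨?_, hw⟩
      rw [mem_preimage, hF t ht]
      exact htC
  · obtain ⟨t, ht, rfl⟩ := hsurj w hw
    rw [hF t ht, h t ht]

/-- there is no logarithm of `w - z` on the boundary of a Jordan domain, if `z` is inside -/
theorem not_logOn_frontier (Φ : (ℝ × ℝ) ≃ₜ (ℝ × ℝ)) {z : ℂ} (hz : z ∈ DC Φ) :
    ¬ LogOn (range (FC Φ)) (fun w => w - z) := by
  intro h
  have hK : IsCompact (range (FC Φ)) := by
    rw [← frontier_DC]
    exact (isBounded_DC Φ).isCompact_closure.of_isClosed_subset isClosed_frontier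
      frontier_subset_closure
  obtain ⟨R, hR⟩ := (isBounded_DC Φ).closure.subset_closedBall (0 : ℂ)
  have hRnn : 0 ≤ R := by
    have := hR (subset_closure hz)
    rw [mem_closedBall] at this
    exact dist_nonneg.trans this
  set q : ℂ := ((R + 1 : ℝ) : ℂ) with hq
  have hqn : ‖q‖ = R + 1 := by
    rw [hq, Complex.norm_real, Real.norm_of_nonneg (by linarith)]
  have hqcl : q ∉ closure (DC Φ) := by
    intro hc
    have := hR hc
    rw [mem_closedBall_zero_iff, hqn] at this
    linarith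
  have hfr : range (FC Φ) ⊆ closure (DC Φ) := by
    rw [← frontier_DC]; exact frontier_subset_closure
  have hq0 : q ≠ 0 := by
    intro h0
    rw [h0, norm_zero] at hqn
    linarith
  have h2 : LogOn (range (FC Φ)) (fun w => w - q) := by
    have h3 : LogOn (range (FC Φ)) (fun w => (w - q) / (-q)) := by
      refine logOn_of_norm_sub_one_lt (by fun_prop) fun w hw => ?_
      have hw' : ‖w‖ ≤ R := by
        have := hR (hfr hw)
        rwa [mem_closedBall_zero_iff] at this
      have e : (w - q) / (-q) - 1 = -(w / q) := by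
        field_simp
        ring
      rw [e, norm_neg, norm_div, hqn, div_lt_one (by linarith)]
      linarith
    refine (h3.mul (logOn_const (neg_ne_zero.2 hq0))).congr fun w _ => ?_
    rw [div_mul_cancel₀ _ (neg_ne_zero.2 hq0)]
  have hzK : z ∉ range (FC Φ) := by
    rw [← frontier_DC, (isOpen_DC Φ).frontier_eq]
    exact fun h => h.2 hz
  have hj := joinedIn_of_logOn hK hzK (fun hc => hqcl (hfr hc)) (h.div h2)
  obtain ⟨γ, hγ⟩ := hj
  have hpc : IsPreconnected (range γ) := isPreconnected_range γ.continuous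
  have hsub := hpc.subset_left_of_subset_union (isOpen_DC Φ)
    (isClosed_closure (s := DC Φ)).isOpen_compl
    (disjoint_compl_right.mono_left subset_closure) (by
      rintro _ ⟨t, rfl⟩
      by_cases hc : γ t ∈ closure (DC Φ)
      · left
        by_contra hn
        apply hγ t
        rw [← frontier_DC, (isOpen_DC Φ).frontier_eq]
        exact ⟨hc, hn⟩
      · right; exact hc) ⟨z, mem_range.2 ⟨0, γ.source⟩, hz⟩
  have h5 : γ 1 ∈ DC Φ := hsub (mem_range_self 1)
  rw [γ.target] at h5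
  exact hqcl (subset_closure h5)

theorem sum_zmod {n : ℕ} [NeZero n] (g : ZMod n → ℂ) :
    ∑ i ∈ Finset.range n, g (i : ZMod n) = ∑ i : ZMod n, g i := by
  refine Finset.sum_bij' (fun i _ => (i : ZMod n)) (fun i _ => i.val) ?_ ?_ ?_ ?_ ?_
  · intro i _; exact Finset.mem_univ _
  · intro i _; exact Finset.mem_range.2 (ZMod.val_lt i)
  · intro i hi; exact ZMod.val_cast_of_lt (Finset.mem_range.1 hi)
  · intro i _; exact ZMod.natCast_zmod_val i
  · intro i _; rfl

/-- a closed curve which is close to a polygon of index zero has a closed logarithm -/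
theorem closed_log {n : ℕ} [NeZero n] {q : ZMod n → ℂ} {z : ℂ} {c : ℝ → ℂ} (hc : Continuous c)
    {T : ℝ} (hper : c T = c 0) {s : ℕ → ℝ} (hs : Monotone s) (s0 : s 0 = 0) (sn : s n = T)
    {ε : ℝ} (hclose : ∀ i < n, ∀ t ∈ Icc (s i) (s (i + 1)), dist (q i) (c t) < ε)
    (hd : ∀ t, 2 * ε ≤ dist (c t) z)
    (hsum : ∑ i : ZMod n, Complex.log ((q (i + 1) - z) / (q i - z)) = 0) :
    ∃ ℓ : ℝ → ℂ, ContinuousOn ℓ (Icc 0 T) ∧ (∀ t ∈ Icc 0 T, Complex.exp (ℓ t) = c t - z) ∧
      ℓ 0 = ℓ T := by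
  have hn : 0 < n := Nat.pos_of_ne_zero (NeZero.ne n)
  have hε : 0 < ε := dist_nonneg.trans_lt (hclose 0 hn (s 0) ⟨le_rfl, hs (Nat.zero_le _)⟩)
  have hne : ∀ t, c t - z ≠ 0 := by
    intro t h0
    have := hd t
    rw [sub_eq_zero.1 h0, dist_self] at this
    linarith
  obtain ⟨F, hF, hF'⟩ := hasLogOn_of_convex (convex_Icc (0 : ℝ) T) (fun t => c t - z)
    (by fun_prop) (fun t _ => hne t)
  refine ⟨F, hF, hF', ?_⟩
  -- closeness gives the right half-plane
  have hpos : ∀ (i : ZMod n) (t : ℝ), dist (q i) (c t) < ε → 0 < ((c t - z) / (q i - z)).re := by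
    intro i t h
    have h1 : ε < dist (q i) z := by
      have := dist_triangle (c t) (q i) z
      rw [dist_comm (c t) (q i)] at this
      linarith [hd t]
    have hq : q i - z ≠ 0 := by
      intro h0
      rw [sub_eq_zero.1 h0, dist_self] at h1
      linarith
    have h2 : ‖(c t - z) / (q i - z) - 1‖ < 1 := by
      have e : (c t - z) / (q i - z) - 1 = (c t - q i) / (q i - z) := by
        field_simp
        ring
      rw [e, norm_div, ← dist_eq_norm, ← dist_eq_norm, div_lt_one (by linarith), dist_comm]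
      linarith
    have h3 := Complex.abs_re_le_norm ((c t - z) / (q i - z) - 1)
    rw [Complex.sub_re, Complex.one_re] at h3
    have := (abs_le.1 (h3.trans h2.le)).1
    rcases this.lt_or_eq with h | h
    · linarith
    · exfalso
      have h5 : ‖(c t - z) / (q i - z) - 1‖ < |((c t - z) / (q i - z)).re - 1| := by
        rw [← h]; simpa using h2
      linarith
  have hqne : ∀ (i : ZMod n) (t : ℝ), dist (q i) (c t) < ε → q i - z ≠ 0 := by
    intro i t h h0
    have := hpos i t h
    rw [h0, div_zero, Complex.zero_re] at this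
    exact lt_irrefl _ this
  have hclose' : ∀ i ≤ n, dist (q (i : ZMod n)) (c (s i)) < ε := by
    intro i hi
    rcases hi.lt_or_eq with h | h
    · exact hclose i h _ ⟨le_rfl, hs (Nat.le_succ i)⟩
    · rw [h, sn, hper, ZMod.natCast_self, ← s0]
      have := hclose 0 hn (s 0) ⟨le_rfl, hs (Nat.zero_le _)⟩
      rwa [Nat.cast_zero] at this
  have hrange : ∀ i < n, Icc (s i) (s (i + 1)) ⊆ Icc 0 T := by
    intro i hi
    rw [← s0, ← sn]
    exact Icc_subset_Icc (hs (Nat.zero_le _)) (hs hi)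
  set b : ℕ → ℂ := fun i => Complex.log ((c (s i) - z) / (q (i : ZMod n) - z)) with hb
  have hinc : ∀ i < n, F (s (i + 1)) - F (s i) =
      Complex.log ((c (s (i + 1)) - z) / (q (i : ZMod n) - z)) - b i := by
    intro i hi
    have hG : ContinuousOn (fun t => Complex.log ((c t - z) / (q (i : ZMod n) - z)) +
        Complex.log (q (i : ZMod n) - z)) (Icc (s i) (s (i + 1))) := by
      refine ContinuousOn.add (ContinuousOn.clog (by fun_prop) fun t ht => ?_) continuousOn_const
      exact Complex.mem_slitPlane_iff.2 (Or.inl (hpos i t (hclose i hi t ht)))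
    have h1 := P153.TOP.log_diff_const isPreconnected_Icc (hF.mono (hrange i hi)) hG (fun t ht => by
      have hq := hqne i t (hclose i hi t ht)
      rw [hF' t (hrange i hi ht), Complex.exp_add, Complex.exp_log, Complex.exp_log hq,
        div_mul_cancel₀ _ hq]
      exact div_ne_zero (hne t) hq)
      (left_mem_Icc.2 (hs (Nat.le_succ i))) (right_mem_Icc.2 (hs (Nat.le_succ i)))
    rw [hb]
    linear_combination -h1
  have hJ : ∀ i < n, Complex.log ((q ((i : ZMod n) + 1) - z) / (q (i : ZMod n) - z)) =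
      Complex.log ((c (s (i + 1)) - z) / (q (i : ZMod n) - z)) - b (i + 1) := by
    intro i hi
    have h1 := hpos i (s (i + 1)) (hclose i hi _ ⟨hs (Nat.le_succ i), le_rfl⟩)
    have h2 := hpos ((i + 1 : ℕ) : ZMod n) (s (i + 1)) (hclose' (i + 1) hi)
    have h3 := hqne ((i + 1 : ℕ) : ZMod n) (s (i + 1)) (hclose' (i + 1) hi)
    have h4 := hqne i (s (i + 1)) (hclose i hi _ ⟨hs (Nat.le_succ i), le_rfl⟩)
    rw [hb]
    simp only
    rw [← log_div_of_re_pos h2 h1]
    congr 1
    have e : ((i + 1 : ℕ) : ZMod n) = (i : ZMod n) + 1 := by push_cast; rfl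
    rw [e] at h3 ⊢
    have := hne (s (i + 1))
    field_simp
  have hb0 : b n = b 0 := by
    rw [hb]
    simp only
    rw [sn, hper, s0, ZMod.natCast_self, Nat.cast_zero]
  have htot : F (s n) - F (s 0) = 0 := by
    calc F (s n) - F (s 0) = ∑ i ∈ Finset.range n, (F (s (i + 1)) - F (s i)) :=
          (Finset.sum_range_sub (fun i => F (s i)) n).symm
      _ = ∑ i ∈ Finset.range n,
          (Complex.log ((q ((i : ZMod n) + 1) - z) / (q (i : ZMod n) - z)) +
            (b (i + 1) - b i)) := by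
          refine Finset.sum_congr rfl fun i hi => ?_
          rw [hinc i (Finset.mem_range.1 hi), hJ i (Finset.mem_range.1 hi)]
          ring
      _ = ∑ i ∈ Finset.range n,
          Complex.log ((q ((i : ZMod n) + 1) - z) / (q (i : ZMod n) - z)) + (b n - b 0) := by
          rw [Finset.sum_add_distrib, Finset.sum_range_sub]
      _ = 0 := by
          rw [sum_zmod (fun i => Complex.log ((q (i + 1) - z) / (q i - z))), hsum, hb0]
          ring
  rw [s0, sn] at htot
  exact (sub_eq_zero.1 htot).symm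

theorem exhausts_of_approx {Φ : (ℝ × ℝ) ≃ₜ (ℝ × ℝ)} {δ : ℕ → ℝ} {N k : ℕ → ℕ}
    {p : ∀ n, ZMod (N n) → ℤ × ℤ} {S : ℕ → Finset (ℤ × ℤ)} (h : Approx Φ δ N k p S) :
    Exhausts Φ δ S := by
  intro K hKD hK
  rcases K.eq_empty_or_nonempty with rfl | hKne
  · exact Eventually.of_forall fun n => empty_subset _
  have hKD' : K ⊆ DC Φ := hKD
  have hfrc : IsCompact (range (FC Φ)) := by
    rw [← frontier_DC]
    exact (isBounded_DC Φ).isCompact_closure.of_isClosed_subset isClosed_frontier
      frontier_subset_closure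
  have hdisj : Disjoint K (range (FC Φ)) := by
    rw [Set.disjoint_left]
    intro z hz hz'
    rw [← frontier_DC, (isOpen_DC Φ).frontier_eq] at hz'
    exact hz'.2 (hKD' hz)
  obtain ⟨r, hr, hrd⟩ : ∃ r > 0, ∀ z ∈ K, ∀ w ∈ range (FC Φ), r ≤ dist w z := by
    obtain ⟨r, hr, h1⟩ := hdisj.exists_thickenings hK hfrc.isClosed
    refine ⟨r, hr, fun z hz w hw => ?_⟩
    by_contra hlt
    push Not at hlt
    exact (Set.disjoint_left.1 h1) (mem_thickening_iff.2 ⟨z, hz, hlt⟩)
      (self_subset_thickening hr _ hw)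
  filter_upwards [h.2.2 (r / 2) (by positivity)] with n hn
  obtain ⟨s, hs, s0, -, sN, hcl⟩ := hn
  obtain ⟨hδ, hk0, hkN, hp, hS⟩ := h.1 n
  have hN0 : N n ≠ 0 := by omega
  have : NeZero (N n) := ⟨hN0⟩
  intro z hz
  by_contra hout
  have hδ0 : (δ n : ℂ) ≠ 0 := by exact_mod_cast hδ.ne'
  set ζ : ℂ := z / δ n with hζ
  have hζz : (δ n : ℂ) * ζ = z := by rw [hζ, mul_div_cancel₀ _ hδ0]
  have hface : ∀ f ∈ S n, ζ ∉ cface f := by
    intro f hf hc
    apply hout
    refine ⟨f, hf, ?_⟩
    have e1 : z.re = δ n * ζ.re := by rw [← hζz, Complex.re_ofReal_mul]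
    have e2 : z.im = δ n * ζ.im := by rw [← hζz, Complex.im_ofReal_mul]
    rw [e1, e2]
    obtain ⟨h1, h2, h3, h4⟩ := hc
    refine ⟨?_, ?_, ?_, ?_⟩ <;> gcongr
  have hsum0 := sum_log_eq_zero hp hS hface
  have hsum : ∑ i : ZMod (N n), Complex.log
      (((δ n : ℂ) * pt (p n (i + 1)) - z) / ((δ n : ℂ) * pt (p n i) - z)) = 0 := by
    rw [← hsum0]
    refine Finset.sum_congr rfl fun i _ => ?_
    congr 1
    rw [← hζz, ← mul_sub, ← mul_sub, mul_div_mul_left _ _ hδ0]
  have hcF : Continuous (FC Φ) := (jcurve_FC Φ).cont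
  obtain ⟨ℓ, hℓ, hℓ', hℓ0⟩ := closed_log (q := fun i => (δ n : ℂ) * pt (p n i)) (z := z)
    (c := FC Φ) hcF (T := 2 * Real.pi) (by simpa using (jcurve_FC Φ).per 0) hs s0 sN
    (ε := r / 2) (fun i hi t ht => hcl i hi t ht)
    (fun t => by
      have := hrd z hz (FC Φ t) ⟨t, rfl⟩
      linarith) hsum
  refine not_logOn_frontier Φ (hKD' hz) ?_
  have h1 : LogOn (sphere (0 : ℂ) 1) (fun w => homC Φ w - z) :=
    logOn_circle hℓ (fun t ht => by rw [hℓ' t ht, FC_eq]) hℓ0
  refine (h1.comp (L := range (FC Φ)) (φ := (homC Φ).symm)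
    (homC Φ).symm.continuous.continuousOn ?_).congr ?_
  · rintro _ ⟨t, rfl⟩
    rw [FC_eq, Homeomorph.symm_apply_apply, mem_sphere_zero_iff_norm,
      Complex.norm_exp_ofReal_mul_I]
  · intro w _
    simp

end Vale.Agent.P167.H174
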