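import Vale.Agent.P167.H174.End2

/-!
# P167, block I_END: the interface does not return from the end point `b`
-/

open MeasureTheory Filter Topology Set
open scoped ENNReal

namespace Vale.Agent.P167.H174

open Vale.Agent.P167.E6 Vale.Agent.P167.E2
open Vale.Agent.P167 (nm)
open Vale.Agent.P167.SLE (Cf law bq)
open Vale.Agent.P153.R2.Final (dom circ toC IsUniformizer)
open Vale.Agent.P153.R2.C1 (reparam)

/-- the boundary curve -/
noncomputable def bc (Φ : (ℝ × ℝ) ≃ₜ (ℝ × ℝ)) (t : ℝ) : ℂ := toC (Φ (circ t))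

theorem continuous_toC' : Continuous toC := by
  have : toC = fun z : ℝ × ℝ => (z.1 : ℂ) + z.2 * Complex.I := by
    funext z
    apply Complex.ext <;> simp [toC]
  rw [this]
  fun_prop

theorem continuous_bc (Φ : (ℝ × ℝ) ≃ₜ (ℝ × ℝ)) : Continuous (bc Φ) := by
  have h : Continuous circ := by unfold circ; fun_prop
  exact continuous_toC'.comp (Φ.continuous.comp h)

theorem toC_inj : Function.Injective toC := by
  intro a b h
  have h1 := congrArg Complex.re h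
  have h2 := congrArg Complex.im h
  simp only [toC] at h1 h2
  exact Prod.ext h1 h2

theorem bc_ne {Φ : (ℝ × ℝ) ≃ₜ (ℝ × ℝ)} {t : ℝ} (h0 : 0 ≤ t) (h1 : t ≤ 2 * Real.pi)
    (hne : t ≠ Real.pi) : bc Φ t ≠ bq Φ := by
  intro h
  have h2 : circ t = circ Real.pi := Φ.injective (toC_inj h)
  have h3 : Real.cos t = Real.cos Real.pi := congrArg Prod.fst h2
  rw [Real.cos_pi] at h3
  obtain ⟨m, hm⟩ := Real.cos_eq_neg_one_iff.1 h3
  have hpi := Real.pi_pos
  apply hne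
  have h4 : (m : ℝ) < 1 := by
    by_contra hcon
    push Not at hcon
    nlinarith
  have h5 : (-1 : ℝ) < m := by
    by_contra hcon
    push Not at hcon
    nlinarith
  have h6 : m = 0 := by
    have a1 : m < 1 := by exact_mod_cast h4
    have a2 : -1 < m := by exact_mod_cast h5
    omega
  rw [← hm, h6]
  simp

/-- Boundary points near `b` are joined to `b` by a small arc. -/
theorem near_b (Φ : (ℝ × ℝ) ≃ₜ (ℝ × ℝ)) {r : ℝ} (hr : 0 < r) :
    ∃ r2 : ℝ, 0 < r2 ∧ r2 ≤ r ∧ (∀ t, 0 ≤ t → t ≤ 2 * Real.pi → dist (bc Φ t) (bq Φ) < r2 →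
      ∀ t' : ℝ, |t' - Real.pi| ≤ |t - Real.pi| → dist (bc Φ t') (bq Φ) < r) ∧
      r2 ≤ dist (bc Φ (2 * Real.pi)) (bq Φ) := by
  have hpi := Real.pi_pos
  have hc := (continuous_bc Φ).continuousAt (x := Real.pi)
  obtain ⟨η', hη', h1⟩ := Metric.continuousAt_iff.1 hc r hr
  obtain ⟨η, hη0, hη1, hη2⟩ : ∃ η : ℝ, 0 < η ∧ η < η' ∧ η ≤ Real.pi :=
    ⟨min (η' / 2) Real.pi, lt_min (by linarith) hpi,
      lt_of_le_of_lt (min_le_left _ _) (by linarith), min_le_right _ _⟩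
  set K : Set ℝ := Icc 0 (2 * Real.pi) ∩ {t | η ≤ |t - Real.pi|} with hK
  have hKc : IsCompact K := isCompact_Icc.inter_right
    (isClosed_le continuous_const (by fun_prop))
  have hmem : (2 * Real.pi) ∈ K := by
    refine ⟨⟨by linarith, le_rfl⟩, ?_⟩
    rw [mem_ofPred_eq, abs_of_nonneg (by linarith)]
    linarith
  obtain ⟨t0, ht0, hmin⟩ := hKc.exists_isMinOn ⟨_, hmem⟩
    ((continuous_bc Φ).dist continuous_const (g := fun _ => bq Φ)).continuousOn
  have hpos : 0 < dist (bc Φ t0) (bq Φ) := by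
    rw [dist_pos]
    refine bc_ne ht0.1.1 ht0.1.2 ?_
    intro h
    have := ht0.2
    rw [mem_ofPred_eq, h, sub_self, abs_zero] at this
    linarith
  refine ⟨min (dist (bc Φ t0) (bq Φ)) r, lt_min hpos hr, min_le_right _ _, ?_, ?_⟩
  · intro t ha hb ht t' ht'
    have h2 : |t - Real.pi| < η := by
      by_contra hcon
      push Not at hcon
      have h3 : dist (bc Φ t0) (bq Φ) ≤ dist (bc Φ t) (bq Φ) := hmin (show t ∈ K from ⟨⟨ha, hb⟩, hcon⟩)
      exact absurd (lt_of_lt_of_le ht (min_le_left _ _)) (not_lt.2 h3)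
    apply h1
    rw [Real.dist_eq]
    linarith
  · exact (min_le_left _ _).trans (hmin hmem)

/-! ### Distances -/

theorem dist_le_of {z w : ℂ} {c : ℝ} (h1 : |z.re - w.re| ≤ c) (h2 : |z.im - w.im| ≤ c) :
    dist z w ≤ 2 * c := by
  rw [dist_eq_norm]
  refine (Complex.norm_le_abs_re_add_abs_im _).trans ?_
  rw [Complex.sub_re, Complex.sub_im]
  linarith

theorem of_dist_le {z w : ℂ} {c : ℝ} (h : dist z w ≤ c) : |z.re - w.re| ≤ c ∧ |z.im - w.im| ≤ c := by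
  rw [dist_eq_norm] at h
  have h1 := Complex.abs_re_le_norm (z - w)
  have h2 := Complex.abs_im_le_norm (z - w)
  rw [Complex.sub_re] at h1
  rw [Complex.sub_im] at h2
  exact ⟨h1.trans h, h2.trans h⟩

/-- the lattice point near `b` -/
noncomputable def xb (b : ℂ) (δ : ℝ) : ℤ × ℤ := (round (b.re / δ), round (b.im / δ))

theorem xb_spec (b : ℂ) {δ : ℝ} (hδ : 0 < δ) :
    |δ * (xb b δ).1 - b.re| ≤ δ / 2 ∧ |δ * (xb b δ).2 - b.im| ≤ δ / 2 := by
  have h1 := abs_sub_round (b.re / δ)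
  have h2 := abs_sub_round (b.im / δ)
  have key : ∀ a : ℝ, |a / δ - round (a / δ)| ≤ 1 / 2 → |δ * round (a / δ) - a| ≤ δ / 2 := by
    intro a h
    have e : δ * round (a / δ) - a = -(δ * (a / δ - round (a / δ))) := by
      field_simp
      ring
    rw [e, abs_neg, abs_mul, abs_of_pos hδ]
    nlinarith
  exact ⟨key _ h1, key _ h2⟩

theorem re_pt (δ : ℝ) (v : ℤ × ℤ) : ((δ : ℂ) * pt v).re = δ * v.1 := by simp [pt]
theorem im_pt (δ : ℝ) (v : ℤ × ℤ) : ((δ : ℂ) * pt v).im = δ * v.2 := by simp [pt]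

/-- from lattice distance to distance -/
theorem dist_of_nm {b : ℂ} {δ : ℝ} (hδ : 0 < δ) {v : ℤ × ℤ} {R : ℤ} (h : nm (v - xb b δ) ≤ R) :
    dist ((δ : ℂ) * pt v) b ≤ 2 * (δ * R + δ / 2) := by
  obtain ⟨h1, h2⟩ := xb_spec b hδ
  obtain ⟨h3, h4, h5, h6⟩ := nm_le_iff.1 h
  have g3 : ((xb b δ).1 : ℝ) - R ≤ v.1 := by exact_mod_cast h3
  have g4 : (v.1 : ℝ) ≤ (xb b δ).1 + R := by exact_mod_cast h4
  have g5 : ((xb b δ).2 : ℝ) - R ≤ v.2 := by exact_mod_cast h5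
  have g6 : (v.2 : ℝ) ≤ (xb b δ).2 + R := by exact_mod_cast h6
  rw [abs_le] at h1 h2
  refine dist_le_of ?_ ?_
  · rw [re_pt, abs_le]
    constructor <;> nlinarith
  · rw [im_pt, abs_le]
    constructor <;> nlinarith

/-- from distance to lattice distance -/
theorem nm_of_dist {b : ℂ} {δ : ℝ} (hδ : 0 < δ) {v : ℤ × ℤ} {c : ℝ}
    (h : dist ((δ : ℂ) * pt v) b ≤ c) {R : ℤ} (hR : c + δ / 2 ≤ δ * R) : nm (v - xb b δ) ≤ R := by
  obtain ⟨h1, h2⟩ := xb_spec b hδ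
  obtain ⟨h3, h4⟩ := of_dist_le h
  rw [re_pt] at h3
  rw [im_pt] at h4
  rw [abs_le] at h1 h2 h3 h4
  rw [nm_le_iff]
  have key : ∀ a c : ℤ, δ * (a : ℝ) ≤ δ * (c : ℝ) → a ≤ c := by
    intro a c h
    have := le_of_mul_le_mul_left h hδ
    exact_mod_cast this
  refine ⟨key _ _ ?_, key _ _ ?_, key _ _ ?_, key _ _ ?_⟩ <;> push_cast <;> nlinarith

theorem dist_step {δ : ℝ} (hδ : 0 < δ) {u v : ℤ × ℤ} (h : Stp u v) :
    dist ((δ : ℂ) * pt u) ((δ : ℂ) * pt v) ≤ δ := by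
  have e : (δ : ℂ) * pt u - (δ : ℂ) * pt v = (δ : ℂ) * (pt u - pt v) := by ring
  rw [dist_eq_norm, e, norm_mul, Complex.norm_real, Real.norm_of_nonneg hδ.le]
  have h2 : ‖pt u - pt v‖ ≤ 1 := by
    refine (Complex.norm_le_abs_re_add_abs_im _).trans ?_
    rw [Complex.sub_re, Complex.sub_im]
    simp only [pt]
    rcases h.cases with ⟨h3, h4⟩ | ⟨h3, h4⟩ | ⟨h3, h4⟩ | ⟨h3, h4⟩ | ⟨h3, h4⟩ <;> rw [h3, h4] <;>
      push_cast <;> norm_num
  nlinarith

theorem dist_mid {δ : ℝ} (hδ : 0 < δ) (c : Medial) :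
    dist (mid δ c) ((δ : ℂ) * pt c.1) ≤ δ / 2 := by
  have h1 := dist_step hδ (u := c.1 + dir (c.2 + 1)) (v := c.1) (Stp.symm (Or.inr ⟨_, rfl⟩))
  rw [dist_eq_norm] at h1 ⊢
  have e : mid δ c - (δ : ℂ) * pt c.1 =
      ((δ : ℂ) * pt (c.1 + dir (c.2 + 1)) - (δ : ℂ) * pt c.1) / 2 := by
    unfold mid
    ring
  rw [e, norm_div, Complex.norm_ofNat]
  linarith

section

variable {n : ℕ} {p : ZMod n → ℤ × ℤ} {S : Finset (ℤ × ℤ)} {k : ℕ} {A : Finset (Sym2 (ℤ × ℤ))}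

/-- the curve is near the left vertices -/
theorem dist_crv {δ : ℝ} (hδ : 0 < δ) (t : unitInterval) :
    dist (crv p k δ A t) ((δ : ℂ) * pt (run p k A ⌊(t : ℝ) * ((len p k A - 1 : ℕ) : ℝ)⌋₊).1) ≤
      3 * δ := by
  set m := len p k A - 1 with hm
  set j := ⌊(t : ℝ) * (m : ℝ)⌋₊ with hj
  have h1 : crv p k δ A t = poly (fun j => mid δ (run p k A j)) m t := rfl
  have ht0 : (0 : ℝ) ≤ (t : ℝ) * m := mul_nonneg t.2.1 (Nat.cast_nonneg _)
  have hf0 : (0 : ℝ) ≤ (t : ℝ) * m - j := sub_nonneg.2 (Nat.floor_le ht0)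
  have hf1 : (t : ℝ) * m - j ≤ 1 := by
    have := Nat.lt_floor_add_one ((t : ℝ) * m)
    linarith
  have h2 : dist (mid δ (run p k A (j + 1))) (mid δ (run p k A j)) ≤ 2 * δ := by
    have a1 := dist_mid hδ (run p k A (j + 1))
    have a2 := dist_mid hδ (run p k A j)
    have a3 := dist_step hδ (run_chn (p := p) (k := k) (A := A) j).stp.symm
    have a4 := dist_triangle4_right (mid δ (run p k A (j + 1))) (mid δ (run p k A j))
      ((δ : ℂ) * pt (run p k A (j + 1)).1) ((δ : ℂ) * pt (run p k A j).1)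
    have a5 := dist_triangle (mid δ (run p k A (j + 1))) ((δ : ℂ) * pt (run p k A (j + 1)).1)
      (mid δ (run p k A j))
    have a6 := dist_triangle ((δ : ℂ) * pt (run p k A (j + 1)).1) ((δ : ℂ) * pt (run p k A j).1)
      (mid δ (run p k A j))
    rw [dist_comm ((δ : ℂ) * pt (run p k A j).1) (mid δ (run p k A j))] at a6
    linarith
  have h3 : dist (crv p k δ A t) (mid δ (run p k A j)) ≤ 2 * δ := by
    rw [h1, dist_eq_norm]
    unfold poly
    have e : mid δ (run p k A ⌊(t : ℝ) * m⌋₊) + (((t : ℝ) * m - ⌊(t : ℝ) * m⌋₊ : ℝ) : ℂ) *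
        (mid δ (run p k A (⌊(t : ℝ) * m⌋₊ + 1)) - mid δ (run p k A ⌊(t : ℝ) * m⌋₊)) -
        mid δ (run p k A j) = (((t : ℝ) * m - j : ℝ) : ℂ) *
        (mid δ (run p k A (j + 1)) - mid δ (run p k A j)) := by
      rw [← hj]
      ring
    rw [e, norm_mul, Complex.norm_real, Real.norm_of_nonneg hf0, ← dist_eq_norm]
    nlinarith [dist_nonneg (x := mid δ (run p k A (j + 1))) (y := mid δ (run p k A j))]
  have h4 := dist_mid hδ (run p k A j)
  have h5 := dist_triangle (crv p k δ A t) (mid δ (run p k A j)) ((δ : ℂ) * pt (run p k A j).1)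
  linarith

end

theorem OArm.mono {A : Finset (Sym2 (ℤ × ℤ))} {x : ℤ × ℤ} {ρ R ρ' R' : ℤ} (h1 : ρ ≤ ρ')
    (h2 : R' ≤ R) (h : OArm A x ρ R) : OArm A x ρ' R' := by
  obtain ⟨u, v, a, b, c⟩ := h
  exact ⟨u, v, a, by omega, by omega⟩

/-- **The interface does not return from the end point.** -/
theorem i_end6 {Φ : (ℝ × ℝ) ≃ₜ (ℝ × ℝ)} {δ : ℕ → ℝ} {N k : ℕ → ℕ}
    {p : ∀ n, ZMod (N n) → ℤ × ℤ} {S : ℕ → Finset (ℤ × ℤ)} (hA : Approx Φ δ N k p S)
    {r : ℝ} (hr : 0 < r) {q : ℝ} (hq : 0 < q) :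
    ∃ r' : ℝ, 0 < r' ∧ ∀ᶠ n in atTop, (law (S n)).real {A : Cf (S n) |
      ∃ s t : unitInterval, s ≤ t ∧ dist (crv (p n) (k n) (δ n) A.1 s) (bq Φ) < r' ∧
        r < dist (crv (p n) (k n) (δ n) A.1 t) (bq Φ)} ≤ q := by
  obtain ⟨C, α, hC, hα, hbound⟩ := arm_bound
  obtain ⟨r2, hr2, hr2r, hnear, hab⟩ := near_b Φ (r := r / 16) (by linarith)
  -- the choice of `r'`
  obtain ⟨r', hr', hr'1, hr'2⟩ : ∃ r' : ℝ, 0 < r' ∧ 32 * r' < r2 ∧
      C * (32 * r' / r2) ^ α ≤ q := by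
    have h1 : Tendsto (fun x : ℝ => C * (32 * x / r2) ^ α) (𝓝[>] 0) (𝓝 0) := by
      have h2 : Tendsto (fun x : ℝ => 32 * x / r2) (𝓝[>] 0) (𝓝 0) := by
        have h3 : Tendsto (fun x : ℝ => 32 * x / r2) (𝓝 0) (𝓝 (32 * 0 / r2)) :=
          (continuous_const.mul continuous_id).div_const _ |>.tendsto 0
        rw [mul_zero, zero_div] at h3
        exact h3.mono_left nhdsWithin_le_nhds
      have h4 := (h2.rpow_const (p := α) (Or.inr hα.le)).const_mul C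
      rwa [Real.zero_rpow hα.ne', mul_zero] at h4
    have h5 : ∀ᶠ x : ℝ in 𝓝[>] 0, C * (32 * x / r2) ^ α ≤ q :=
      (h1.eventually (gt_mem_nhds hq)).mono fun x hx => le_of_lt hx
    have h6 : ∀ᶠ x : ℝ in 𝓝[>] 0, x < r2 / 32 := by
      filter_upwards [Ioo_mem_nhdsGT (show (0 : ℝ) < r2 / 32 by positivity)] with x hx
      exact hx.2
    obtain ⟨x, h7, h8, h9⟩ := (h5.and (h6.and self_mem_nhdsWithin)).exists
    exact ⟨x, h9, by linarith, h7⟩
  refine ⟨r', hr', ?_⟩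
  obtain ⟨hpoly, hδ0, happ⟩ := hA
  have hδsmall : ∀ᶠ n in atTop, δ n < r' / 16 :=
    hδ0.eventually (gt_mem_nhds (show (0 : ℝ) < r' / 16 by positivity))
  filter_upwards [hδsmall, happ (r2 / 8) (by positivity)] with n hδn happn
  obtain ⟨hδ, h0k, hk, hp, hS⟩ := hpoly n
  obtain ⟨s, hs, hs0, hsk, hsN, hsd⟩ := happn
  have hN : N n ≠ 0 := by omega
  -- integer radii
  set d := δ n with hd
  set b := bq Φ with hb
  set x := xb b d with hx
  obtain ⟨ρ, hρ⟩ : ∃ ρ : ℤ, ρ = ⌊r' / d⌋ + 5 := ⟨_, rfl⟩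
  obtain ⟨R, hR⟩ : ∃ R : ℤ, R = ⌊r2 / (4 * d)⌋ := ⟨_, rfl⟩
  obtain ⟨R', hR'⟩ : ∃ R' : ℤ, R' = ⌊r / (8 * d)⌋ + 1 := ⟨_, rfl⟩
  have hρ1 : d * ρ ≤ r' + 5 * d := by
    have h1 := Int.floor_le (r' / d)
    have h2 : d * (⌊r' / d⌋ : ℝ) ≤ r' := by
      have := mul_le_mul_of_nonneg_left h1 hδ.le
      rwa [mul_div_cancel₀ _ hδ.ne'] at this
    rw [hρ]; push_cast
    linarith
  have hρ2 : r' + 4 * d ≤ d * ρ := by
    have h1 := (Int.lt_floor_add_one (r' / d)).le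
    have h2 : r' ≤ d * ((⌊r' / d⌋ : ℝ) + 1) := by
      have := mul_le_mul_of_nonneg_left h1 hδ.le
      rwa [mul_div_cancel₀ _ hδ.ne'] at this
    rw [hρ]; push_cast
    linarith
  have hR1 : d * R ≤ r2 / 4 := by
    have h1 := Int.floor_le (r2 / (4 * d))
    rw [← hR] at h1
    have := mul_le_mul_of_nonneg_left h1 hδ.le
    have e : d * (r2 / (4 * d)) = r2 / 4 := by field_simp
    linarith
  have hR2 : r2 / 4 - d ≤ d * R := by
    have h1 := (Int.lt_floor_add_one (r2 / (4 * d))).le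
    rw [← hR] at h1
    have := mul_le_mul_of_nonneg_left h1 hδ.le
    have e : d * (r2 / (4 * d)) = r2 / 4 := by field_simp
    linarith
  have hR'1 : d * R' ≤ r / 8 + d := by
    have h1 := Int.floor_le (r / (8 * d))
    have := mul_le_mul_of_nonneg_left h1 hδ.le
    have e : d * (r / (8 * d)) = r / 8 := by field_simp
    rw [hR']; push_cast
    linarith
  have hR'2 : r / 8 ≤ d * R' := by
    have h1 := (Int.lt_floor_add_one (r / (8 * d))).le
    have := mul_le_mul_of_nonneg_left h1 hδ.le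
    have e : d * (r / (8 * d)) = r / 8 := by field_simp
    rw [hR']; push_cast
    linarith
  have key : ∀ a c : ℤ, d * (a : ℝ) < d * (c : ℝ) → a < c := by
    intro a c h
    have := lt_of_mul_lt_mul_left h hδ.le
    exact_mod_cast this
  have hρR : ρ + 1 < R - 1 := by
    apply key
    push_cast
    nlinarith
  have hRR' : R ≤ R' := by
    refine (key _ _ ?_).le
    linarith
  have hρ0 : 1 ≤ ρ := by
    have h1 : 0 ≤ ⌊r' / d⌋ := Int.floor_nonneg.2 (by positivity)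
    omega
  -- vertices near `b`
  have hvert : ∀ j : ℕ, j < N n → dist ((d : ℂ) * pt (p n (j : ZMod (N n)))) (bc Φ (s j)) <
      r2 / 8 := by
    intro j hj
    exact hsd j hj (s j) ⟨le_rfl, hs (Nat.le_succ j)⟩
  have hs01 : ∀ j : ℕ, j ≤ N n → 0 ≤ s j ∧ s j ≤ 2 * Real.pi := by
    intro j hj
    exact ⟨hs0 ▸ hs (Nat.zero_le j), hsN ▸ hs hj⟩
  have hclose : ∀ j : ℕ, j < N n → nm (p n (j : ZMod (N n)) - x) ≤ R →
      dist (bc Φ (s j)) b < r2 := by
    intro j hj h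
    have h1 := dist_of_nm hδ h
    have h2 := hvert j hj
    have h3 := dist_triangle_left (bc Φ (s j)) b ((d : ℂ) * pt (p n (j : ZMod (N n))))
    linarith
  have hfar' : ∀ j : ℕ, j < N n → dist (bc Φ (s j)) b < r / 16 →
      nm (p n (j : ZMod (N n)) - x) ≤ R' := by
    intro j hj h
    have h2 := hvert j hj
    have h3 := dist_triangle ((d : ℂ) * pt (p n (j : ZMod (N n)))) (bc Φ (s j)) b
    refine nm_of_dist hδ (c := r / 8 - d / 2) ?_ (by linarith)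
    linarith
  have hlast : R < nm (p n (-1) - x) := by
    by_contra hcon
    push Not at hcon
    have e : ((N n - 1 : ℕ) : ZMod (N n)) = -1 := by
      rw [Nat.cast_sub (by omega)]
      simp
    have h1 := hsd (N n - 1) (by omega) (2 * Real.pi) ⟨(hs01 _ (by omega)).2, by
      rw [← hsN]
      exact hs (by omega)⟩
    rw [e] at h1
    have h2 := dist_of_nm hδ hcon
    have h3 := dist_triangle_left (bc Φ (2 * Real.pi)) b ((d : ℂ) * pt (p n (-1)))
    have h4 : dist ((d : ℂ) * pt (p n (-1))) (bc Φ (2 * Real.pi)) < r2 / 8 := h1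
    linarith
  have hw : ∀ j : ℕ, k n ≤ j → j < N n → nm (p n (j : ZMod (N n)) - x) ≤ R →
      ∀ j' : ℕ, k n ≤ j' → j' ≤ j → nm (p n (j' : ZMod (N n)) - x) ≤ R' := by
    intro j hj1 hj2 hj3 j' hj4 hj5
    refine hfar' j' (by omega) ?_
    obtain ⟨a1, a2⟩ := hs01 j hj2.le
    refine hnear (s j) a1 a2 (hclose j hj2 hj3) _ ?_
    have h1 : Real.pi ≤ s j' := hsk ▸ hs hj4
    have h2 : s j' ≤ s j := hs hj5
    rw [abs_of_nonneg (by linarith), abs_of_nonneg (by linarith)]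
    linarith
  have hf : ∀ j : ℕ, j < k n → nm (p n (j : ZMod (N n)) - x) ≤ R →
      ∀ j' : ℕ, j ≤ j' → j' < k n → nm (p n (j' : ZMod (N n)) - x) ≤ R' := by
    intro j hj1 hj3 j' hj4 hj5
    refine hfar' j' (by omega) ?_
    obtain ⟨a1, a2⟩ := hs01 j (by omega)
    refine hnear (s j) a1 a2 (hclose j (by omega) hj3) _ ?_
    have h1 : s j' ≤ Real.pi := hsk ▸ hs hj5.le
    have h2 : s j ≤ s j' := hs hj4
    rw [abs_of_nonpos (by linarith), abs_of_nonpos (by linarith)]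
    linarith
  -- the event
  have hsub : {A : Cf (S n) | ∃ s t : unitInterval, s ≤ t ∧
      dist (crv (p n) (k n) d A.1 s) b < r' ∧ r < dist (crv (p n) (k n) d A.1 t) b} ⊆
      {A : Cf (S n) | OArm A.1 x (ρ + 1) (R - 1) ∨ DArm (S n) A.1 x (ρ + 1) (R - 1)} := by
    rintro A ⟨u, t, hut, hu, ht⟩
    have hAS : A.1 ⊆ edges (S n) := Finset.mem_powerset.1 A.2
    set m : ℕ := len (p n) (k n) A.1 - 1 with hm
    have hlen := len_pos hp hS hk hAS
    have hlt : ⌊(t : ℝ) * (m : ℝ)⌋₊ < len (p n) (k n) A.1 := by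
      have h1 : (t : ℝ) * (m : ℝ) ≤ m := by
        have := t.2.2
        nlinarith [Nat.cast_nonneg (α := ℝ) m]
      have h2 : ⌊(t : ℝ) * (m : ℝ)⌋₊ ≤ m := by
        have := Nat.floor_mono h1
        rwa [Nat.floor_natCast] at this
      omega
    have hle : ⌊(u : ℝ) * (m : ℝ)⌋₊ ≤ ⌊(t : ℝ) * (m : ℝ)⌋₊ :=
      Nat.floor_mono (mul_le_mul_of_nonneg_right hut (Nat.cast_nonneg _))
    have h1 := dist_crv (p := p n) (k := k n) (A := A.1) hδ u
    have h2 := dist_crv (p := p n) (k := k n) (A := A.1) hδ t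
    rw [← hm] at h1 h2
    generalize ⌊(t : ℝ) * (m : ℝ)⌋₊ = jt at hlt hle h2
    generalize ⌊(u : ℝ) * (m : ℝ)⌋₊ = ju at hle h1
    have h3 : nm ((run (p n) (k n) A.1 ju).1 - x) ≤ ρ := by
      have h4 := dist_triangle_left ((d : ℂ) * pt (run (p n) (k n) A.1 ju).1) b
        (crv (p n) (k n) d A.1 u)
      -- a bit of room is needed
      have h5 : dist ((d : ℂ) * pt (run (p n) (k n) A.1 ju).1) b ≤ r' + 3 * d := by linarith
      refine nm_of_dist hδ h5 ?_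
      linarith
    have h4 : R' + 1 < nm ((run (p n) (k n) A.1 jt).1 - x) := by
      by_contra hcon
      push Not at hcon
      have h5 := dist_of_nm hδ hcon
      have h6 := dist_triangle (crv (p n) (k n) d A.1 t)
        ((d : ℂ) * pt (run (p n) (k n) A.1 jt).1) b
      push_cast at h5
      nlinarith
    rcases no_return hp hS h0k hk hAS (ρ := ρ) (R := R) (R' := R') (x := x) (by omega) hlast hw hf
      hRR' hle hlt h3 h4 with h5 | h5
    · exact Or.inl (h5.mono (by omega) (by omega))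
    · exact Or.inr h5
  refine (measureReal_mono hsub).trans ((hbound (S n) x (ρ + 1) (R - 1) (by omega) hρR).trans ?_)
  refine le_trans (mul_le_mul_of_nonneg_left (Real.rpow_le_rpow ?_ ?_ hα.le) hC.le) hr'2
  · apply div_nonneg
    · exact_mod_cast (by omega : (0 : ℤ) ≤ ρ + 1)
    · exact_mod_cast (by omega : (0 : ℤ) ≤ R - 1)
  · have h1 : (0 : ℝ) < ((R - 1 : ℤ) : ℝ) := by exact_mod_cast (by omega : (0 : ℤ) < R - 1)
    rw [div_le_div_iff₀ h1 hr2]
    have h2 : d * (((ρ + 1 : ℤ) : ℝ) * r2) ≤ d * (32 * r' * ((R - 1 : ℤ) : ℝ)) := by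
      push_cast
      nlinarith
    exact le_of_mul_le_mul_left h2 hδ

/-- The field `fin` of `SeqHyp`: curves close to the interfaces do not return from `b`. -/
theorem fin6 {Φ : (ℝ × ℝ) ≃ₜ (ℝ × ℝ)} {δ : ℕ → ℝ} {N k : ℕ → ℕ}
    {p : ∀ n, ZMod (N n) → ℤ × ℤ} {S : ℕ → Finset (ℤ × ℤ)} (hA : Approx Φ δ N k p S)
    (X : ∀ n, Cf (S n) → C(unitInterval, ℂ)) (e : ℕ → ℝ) (he : Tendsto e atTop (𝓝 0))
    (hX : ∀ (n : ℕ) (A : Cf (S n)) (c : C(unitInterval, ℂ)),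
      IsInterface (p n) (k n) (δ n) A.1 c →
        ∃ φ : unitInterval ≃o unitInterval, dist (reparam c φ) (X n A) ≤ e n) :
    ∀ r : ℝ, 0 < r → ∀ q : ℝ≥0∞, 0 < q → ∃ r' : ℝ, 0 < r' ∧ ∀ᶠ n in atTop,
      law (S n) {A | ∃ s t : unitInterval, s ≤ t ∧ dist (X n A s) (bq Φ) < r' ∧
        r < dist (X n A t) (bq Φ)} ≤ q := by
  intro r hr q hq
  obtain ⟨q0, hq0, hq0'⟩ : ∃ q0 : ℝ, 0 < q0 ∧ ENNReal.ofReal q0 ≤ q := by
    rcases eq_or_ne q ⊤ with h | h
    · exact ⟨1, one_pos, h ▸ le_top⟩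
    · exact ⟨q.toReal, ENNReal.toReal_pos hq.ne' h, (ENNReal.ofReal_toReal h).le⟩
  obtain ⟨r', hr', h⟩ := i_end6 hA (r := r / 2) (by linarith) hq0
  refine ⟨r' / 2, by linarith, ?_⟩
  have he' : ∀ᶠ n in atTop, e n < min (r / 2) (r' / 2) :=
    he.eventually (gt_mem_nhds (lt_min (by linarith) (by linarith)))
  filter_upwards [h, he'] with n hn hen
  obtain ⟨hδ, h0k, hk, hp, hS⟩ := hA.1 n
  refine le_trans ?_ hq0'
  rw [← ENNReal.ofReal_toReal (measure_ne_top (law (S n)) _)]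
  refine ENNReal.ofReal_le_ofReal (le_trans (measureReal_mono ?_) hn)
  rintro A ⟨s, t, hst, hs, ht⟩
  obtain ⟨φ, hφ⟩ := hX n A (crv (p n) (k n) (δ n) A.1)
    (isInterface_crv hp hS h0k hk (Finset.mem_powerset.1 A.2) (δ n))
  have hd : ∀ u : unitInterval, dist (crv (p n) (k n) (δ n) A.1 (φ u)) (X n A u) ≤ e n :=
    fun u => (ContinuousMap.dist_apply_le_dist u).trans hφ
  have e1 := lt_of_lt_of_le hen (min_le_left _ _)
  have e2 := lt_of_lt_of_le hen (min_le_right _ _)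
  refine ⟨φ s, φ t, φ.monotone hst, ?_, ?_⟩
  · have h1 := dist_triangle (crv (p n) (k n) (δ n) A.1 (φ s)) (X n A s) (bq Φ)
    have h2 := hd s
    linarith
  · have h1 := dist_triangle_left (X n A t) (bq Φ) (crv (p n) (k n) (δ n) A.1 (φ t))
    have h2 := hd t
    linarith

end Vale.Agent.P167.H174
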