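import Vale.Agent.P167.H174.Trap

/-!
# P167, block I_END: no return from `b` without an arm (deterministic part, integer coordinates)
-/

namespace Vale.Agent.P167.H174

open Vale.Agent.P167.E6 Vale.Agent.P167.E2 Relation
open Vale.Agent.P167 (nm)

variable {n : ℕ} {p : ZMod n → ℤ × ℤ} {S : Finset (ℤ × ℤ)} {k : ℕ} {A : Finset (Sym2 (ℤ × ℤ))}

theorem val_aux2 : ∀ (a b s : Fin 4), (s - b).val < (a - b).val → s ≠ b →
    ((s - 1) - b).val < (a - b).val := by decide

/-- The path is never outside of the domain at a wired vertex, before the exit. -/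
theorem not_ext_wired (hp : IsPolygon p) (hS : Encloses p S) (h0k : 0 < k) (hk : k < n)
    (hA : A ⊆ edges S) (t : ℕ) (ht0 : 1 ≤ t) (ht : t < len p k A) :
    ¬ (fc (run p k A t) ∉ S ∧ ∃ j : ℕ, k ≤ j ∧ j < n ∧ (run p k A t).1 = p (j : ZMod n)) := by
  have hn : n ≠ 0 := by omega
  have hω := wired_sub (k := k) hp hS hA
  have inj : ∀ a b : ℕ, a < n → b < n → p (a : ZMod n) = p (b : ZMod n) → a = b :=
    fun a b ha hb h => cast_inj hn ha hb (hp.2.1 h)
  induction t with
  | zero => omega
  | succ t ih =>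
    rintro ⟨h1, j, hj1, hj2, hj3⟩
    -- the medial edge before is outside at a wired vertex, too
    have hprev : prev (wiredOpen p k A) (run p k A (t + 1)) = run p k A t := by
      rw [run_succ, prev_next]
    have hne := run_ne hp hS hk hA (Nat.succ_pos t) ht
    have hback : fc (run p k A t) ∉ S ∧ ∃ j : ℕ, k ≤ j ∧ j < n ∧ (run p k A t).1 = p (j : ZMod n) := by
      rw [← hprev]
      generalize run p k A (t + 1) = c at h1 hj3 hne
      obtain ⟨v, r⟩ := c
      simp only at hj3
      subst hj3
      change face (p (j : ZMod n)) r ∉ S at h1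
      by_cases hr : r = ri p (j : ZMod n)
      · -- the first exterior corner
        by_cases hjk : j = k
        · exfalso
          apply hne
          rw [hr, hjk]
          rfl
        · have hj4 : k ≤ j - 1 := by omega
          have hcast : ((j - 1 : ℕ) : ZMod n) = (j : ZMod n) - 1 := by
            rw [Nat.cast_sub (by omega)]
            simp
          have hri := ri_spec hp (j : ZMod n)
          have ho : behind (p (j : ZMod n), r) ∈ wiredOpen p k A := by
            refine Or.inr ⟨j - 1, hj4, by omega, ?_⟩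
            have e : ((j - 1 : ℕ) : ZMod n) + 1 = (j : ZMod n) := by rw [hcast, sub_add_cancel]
            unfold behind
            simp only
            rw [hr, ← hri, e, hcast, Sym2.eq_swap]
          rw [prev_open ho]
          constructor
          · show face (p (j : ZMod n) + dir r) (r + 1) ∉ S
            rw [face_left]
            exact h1
          · refine ⟨j - 1, hj4, by omega, ?_⟩
            simp only
            rw [hr, ← hri, hcast]
      · have h2 := (ext_iff hp hS).1 h1
        have h3 := val_aux2 _ _ _ h2 hr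
        have h4 := (ext_iff hp hS).2 h3
        have hc : behind (p (j : ZMod n), r) ∉ wiredOpen p k A := by
          intro h
          have h5 := (mem_edges r).1 (hω h)
          tauto
        rw [prev_closed hc]
        exact ⟨h4, j, hj1, hj2, rfl⟩
    rcases Nat.eq_zero_or_pos t with rfl | htp
    · -- the first step
      rw [run_succ, run_zero] at h1 hj3
      by_cases ho : ahead (cs p) ∈ wiredOpen p k A
      · rw [next_open ho] at hj3
        simp only [cs, fin4_1] at hj3
        rw [← ro_spec hp, neg_add_cancel] at hj3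
        have h5 := inj 0 j (by omega) hj2 (by simpa using hj3)
        omega
      · rw [next_closed ho] at h1
        apply h1
        simp only [fc, cs, fin4_1]
        exact (enc_out hp hS).1
    · exact ih htp (by omega) hback

/-- Outside of the domain the path is at a free vertex. -/
theorem ext_free (hp : IsPolygon p) (hS : Encloses p S) (h0k : 0 < k) (hk : k < n)
    (hA : A ⊆ edges S) {t : ℕ} (ht0 : 1 ≤ t) (ht : t < len p k A) (he : fc (run p k A t) ∉ S) :
    ∃ l : ℕ, l < k ∧ (run p k A t).1 = p (l : ZMod n) := by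
  have hn : n ≠ 0 := by omega
  obtain ⟨r, hr⟩ := mem_verts.1 (run_mem hp hS hA t)
  obtain ⟨i, hi⟩ := exists_of_mixed hS hr he
  obtain ⟨j, hj, rfl⟩ := nat_of_zmod hn i
  by_cases hjk : j < k
  · exact ⟨j, hjk, hi.symm⟩
  · exact absurd ⟨he, j, by omega, hj, hi.symm⟩ (not_ext_wired hp hS h0k hk hA t ht0 ht)

/-- the step of an open path -/
def OStep (A : Finset (Sym2 (ℤ × ℤ))) (u v : ℤ × ℤ) : Prop := (∃ r, v = u + dir r) ∧ s(u, v) ∈ A

/-- the step of a dual path: through the closed edges of the domain -/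
def DStep (S : Finset (ℤ × ℤ)) (A : Finset (Sym2 (ℤ × ℤ))) (f g : ℤ × ℤ) : Prop :=
  ∃ v r, face v r = f ∧ face v (r + 1) = g ∧ s(v, v + dir (r + 1)) ∈ edges S ∧
    s(v, v + dir (r + 1)) ∉ A

/-- open arm in the annulus of radii `ρ < R` around `x` -/
def OArm (A : Finset (Sym2 (ℤ × ℤ))) (x : ℤ × ℤ) (ρ R : ℤ) : Prop :=
  ∃ u v, ReflTransGen (OStep A) u v ∧ nm (u - x) ≤ ρ ∧ R ≤ nm (v - x)

/-- dual arm in the annulus of radii `ρ < R` around `x` -/
def DArm (S : Finset (ℤ × ℤ)) (A : Finset (Sym2 (ℤ × ℤ))) (x : ℤ × ℤ) (ρ R : ℤ) : Prop :=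
  ∃ f g, ReflTransGen (DStep S A) f g ∧ nm (f - x) ≤ ρ ∧ R ≤ nm (g - x)

theorem nm_le_iff {v x : ℤ × ℤ} {R : ℤ} :
    nm (v - x) ≤ R ↔ x.1 - R ≤ v.1 ∧ v.1 ≤ x.1 + R ∧ x.2 - R ≤ v.2 ∧ v.2 ≤ x.2 + R := by
  simp only [nm, Prod.fst_sub, Prod.snd_sub, max_le_iff, abs_le]
  omega

theorem nm_stp {u v x : ℤ × ℤ} (h : Stp u v) : nm (v - x) ≤ nm (u - x) + 1 := by
  have h1 := (nm_le_iff (v := u) (x := x)).1 le_rfl
  rw [nm_le_iff]
  have := h.cases
  omega

theorem nm_fc (c : Medial) (x : ℤ × ℤ) : nm (fc c - x) ≤ nm (c.1 - x) + 1 ∧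
    nm (c.1 - x) ≤ nm (fc c - x) + 1 := by
  obtain ⟨v, r⟩ := c
  have h1 := (nm_le_iff (v := v) (x := x)).1 le_rfl
  have h2 := (nm_le_iff (v := fc (v, r)) (x := x)).1 le_rfl
  rw [nm_le_iff, nm_le_iff]
  simp only [fc] at h1 h2 ⊢
  revert r
  refine forall4 ?_ ?_ ?_ ?_ <;> simp only [face0, face1, face2, face3] <;> omega

theorem run_chn (j : ℕ) : Chn (wiredOpen p k A) (run p k A j).1 (run p k A (j + 1)).1 := by
  rw [run_succ]
  by_cases h : ahead (run p k A j) ∈ wiredOpen p k A
  · rw [next_open h]
    exact Or.inr ⟨⟨_, rfl⟩, h⟩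
  · rw [next_closed h]
    exact Or.inl rfl

/-- **No return without an arm.** -/
theorem no_return (hp : IsPolygon p) (hS : Encloses p S) (h0k : 0 < k) (hk : k < n)
    (hA : A ⊆ edges S) {x : ℤ × ℤ} {ρ R R' : ℤ} (hρR : ρ < R)
    (hlast : R < nm (p (-1) - x))
    (hw : ∀ j : ℕ, k ≤ j → j < n → nm (p (j : ZMod n) - x) ≤ R →
      ∀ j' : ℕ, k ≤ j' → j' ≤ j → nm (p (j' : ZMod n) - x) ≤ R')
    (hf : ∀ j : ℕ, j < k → nm (p (j : ZMod n) - x) ≤ R →
      ∀ j' : ℕ, j ≤ j' → j' < k → nm (p (j' : ZMod n) - x) ≤ R') (hRR' : R ≤ R')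
    {s t : ℕ} (hst : s ≤ t) (ht : t < len p k A) (hs : nm ((run p k A s).1 - x) ≤ ρ)
    (hfar : R' + 1 < nm ((run p k A t).1 - x)) :
    OArm A x ρ R ∨ DArm S A x (ρ + 1) (R - 1) := by
  classical
  have hn : n ≠ 0 := by omega
  have hω := wired_sub (k := k) hp hS hA
  -- the first time after `s` at distance `R`
  have hex : ∃ d, R ≤ nm ((run p k A (s + d)).1 - x) := ⟨t - s, by
    have : s + (t - s) = t := by omega
    rw [this]
    omega⟩
  obtain ⟨d, hd1, hd2⟩ : ∃ d, R ≤ nm ((run p k A (s + d)).1 - x) ∧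
      ∀ d' < d, nm ((run p k A (s + d')).1 - x) < R :=
    ⟨Nat.find hex, Nat.find_spec hex, fun d' h => by have := Nat.find_min hex h; omega⟩
  have hdt : s + d ≤ t := by
    by_contra hcon
    have h1 := hd2 (t - s) (by omega)
    have : s + (t - s) = t := by omega
    rw [this] at h1
    omega
  have hle : ∀ d' ≤ d, nm ((run p k A (s + d')).1 - x) ≤ R := by
    intro d' hd'
    rcases Nat.lt_or_ge d' d with h | h
    · exact (hd2 d' h).le
    · have h1 : d' = d := by omega
      subst h1
      rcases Nat.eq_zero_or_pos d' with h2 | h2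
      · subst h2
        rw [add_zero]
        omega
      · have h3 := nm_stp (x := x) (run_chn (p := p) (k := k) (A := A) (s + (d' - 1))).stp
        have h4 := hd2 (d' - 1) (by omega)
        have h5 : s + (d' - 1) + 1 = s + d' := by omega
        rw [h5] at h3
        omega
  by_cases c1 : ∀ d' ≤ d, ∀ j : ℕ, k ≤ j → j < n → (run p k A (s + d')).1 ≠ p (j : ZMod n)
  · -- the left chain is an open arm
    left
    refine ⟨(run p k A s).1, (run p k A (s + d)).1, ?_, hs, hd1⟩
    have key : ∀ d' ≤ d, ReflTransGen (OStep A) (run p k A s).1 (run p k A (s + d')).1 := by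
      intro d'
      induction d' with
      | zero => intro _; exact ReflTransGen.refl
      | succ d' ih =>
        intro hd'
        have h1 := ih (by omega)
        rcases run_chn (p := p) (k := k) (A := A) (s + d') with h2 | ⟨⟨r, h2⟩, h3⟩
        · rw [← add_assoc, h2]
          exact h1
        · refine h1.tail ⟨⟨r, h2⟩, ?_⟩
          rcases h3 with h3 | ⟨i, hi1, hi2, hi3⟩
          · exact h3
          · exfalso
            rw [Sym2.eq_iff] at hi3
            rcases hi3 with ⟨h4, -⟩ | ⟨h4, -⟩
            · exact c1 d' (by omega) i hi1 (by omega) h4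
            · exact c1 d' (by omega) (i + 1) (by omega) hi2 (by rw [h4]; push_cast; rfl)
    exact key d le_rfl
  by_cases c2 : ∀ d' ≤ d, fc (run p k A (s + d')) ∈ S
  · -- the right chain is a dual arm
    right
    refine ⟨fc (run p k A s), fc (run p k A (s + d)), ?_, ?_, ?_⟩
    · have key : ∀ d' ≤ d, ReflTransGen (DStep S A) (fc (run p k A s))
          (fc (run p k A (s + d'))) := by
        intro d'
        induction d' with
        | zero => intro _; exact ReflTransGen.refl
        | succ d' ih =>
          intro hd'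
          have h1 := ih (by omega)
          have h2 := c2 (d' + 1) hd'
          rw [← add_assoc] at h2 ⊢
          rw [run_succ] at h2 ⊢
          by_cases ho : ahead (run p k A (s + d')) ∈ wiredOpen p k A
          · rw [fc_next_open ho]
            exact h1
          · refine h1.tail ?_
            rw [next_closed ho] at h2 ⊢
            refine ⟨(run p k A (s + d')).1, (run p k A (s + d')).2, rfl, rfl, ?_, ?_⟩
            · rw [mem_edges]
              exact Or.inl h2
            · intro h3
              exact ho (Or.inl h3)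
      exact key d le_rfl
    · have := (nm_fc (run p k A s) x).1
      omega
    · have := (nm_fc (run p k A (s + d)) x).2
      omega
  -- both boundary arcs are met
  exfalso
  push Not at c1 c2
  obtain ⟨d1, hd1', j1, hj1, hj1', he1⟩ := c1
  obtain ⟨d2, hd2', he2⟩ := c2
  have hlen2 : s + d2 < len p k A := by omega
  have hpos : 1 ≤ s + d2 := by
    by_contra hcon
    have h1 : s + d2 = 0 := by omega
    have h2 := hle d2 hd2'
    rw [h1, run_zero] at h2
    simp only [cs] at h2
    omega
  obtain ⟨l, hlk, hl⟩ := ext_free hp hS h0k hk hA hpos hlen2 he2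
  have hBw := hw j1 hj1 hj1' (by rw [← he1]; exact hle d1 hd1')
  have hBf := hf l hlk (by rw [← hl]; exact hle d2 hd2')
  have harc : ∀ j : ℕ, l ≤ j → j ≤ j1 → nm (p (j : ZMod n) - x) ≤ R' := by
    intro j h1 h2
    by_cases hjk : j < k
    · exact hBf j h1 hjk
    · exact hBw j (by omega) h2
  have hchain : ∃ (q : ℕ → ℤ × ℤ) (L : ℕ), q 0 = p (j1 : ZMod n) ∧ q L = p (l : ZMod n) ∧
      (∀ t < L, Chn (wiredOpen p k A) (q t) (q (t + 1))) ∧ ∀ t ≤ L, nm (q t - x) ≤ R := by
    rcases le_total d1 d2 with h | h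
    · refine ⟨fun t => (run p k A (s + d1 + t)).1, d2 - d1, by simpa using he1, ?_, ?_, ?_⟩
      · have : s + d1 + (d2 - d1) = s + d2 := by omega
        show (run p k A (s + d1 + (d2 - d1))).1 = _
        rw [this, hl]
      · intro t _
        exact run_chn _
      · intro t ht
        show nm ((run p k A (s + d1 + t)).1 - x) ≤ R
        rw [add_assoc]
        exact hle _ (by omega)
    · refine ⟨fun t => (run p k A (s + d1 - t)).1, d1 - d2, by simpa using he1, ?_, ?_, ?_⟩
      · have : s + d1 - (d1 - d2) = s + d2 := by omega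
        show (run p k A (s + d1 - (d1 - d2))).1 = _
        rw [this, hl]
      · intro t ht
        have e : s + d1 - t = s + d1 - (t + 1) + 1 := by omega
        show Chn _ (run p k A (s + d1 - t)).1 (run p k A (s + d1 - (t + 1))).1
        rw [e]
        exact (run_chn _).symm
      · intro t ht
        have e : s + d1 - t = s + (d1 - t) := by omega
        show nm ((run p k A (s + d1 - t)).1 - x) ≤ R
        rw [e]
        exact hle _ (by omega)
  obtain ⟨q, L, hq0, hqL, hq, hqb⟩ := hchain
  have h1 := trap hp hS hk hA hlk hj1 hj1' hq0 hqL hq (x1 := x.1 - R') (x2 := x.1 + R')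
    (y1 := x.2 - R') (y2 := x.2 + R')
    (fun j a b => nm_le_iff.1 (harc j a b)) (fun t h => nm_le_iff.1 ((hqb t h).trans hRR'))
    hl he2 (t := t) (by omega) ht
  have h2 : nm ((run p k A t).1 - x) ≤ R' + 1 := by
    rw [nm_le_iff]
    omega
  omega

end Vale.Agent.P167.H174
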