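import Vale.Agent.P167.H174.End1
import Vale.Agent.P167.H166.Cross
import Vale.Agent.P167.SLE.Asm6

/-!
# P167, block I_END: the arms have small probability
-/

namespace Vale.Agent.P167.H174

open Vale.Agent.P167.E6 Relation MeasureTheory
open Vale.Agent.P167 (nm Cfg op μ)
open Vale.Agent.P167.H192 (ro rf sq ed As cfg)
open Vale.Agent.P145.FB (PStep)
open Vale.Agent.P167.H871 (fi ArmS SB)
open Vale.Agent.P167.SLE (Cf law)

theorem law_real (S : Finset (ℤ × ℤ)) (P : Finset (Sym2 (ℤ × ℤ)) → Prop) :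
    (law S).real {A : Cf S | P A.1} = μ.real {ω : Cfg | P (As S ω)} := by
  classical
  have h1 := SLE.mean_eq S fun A => if P A then (1 : ℝ) else 0
  have h2 := H192.mean_eq S fun A => if P A then (1 : ℝ) else 0
  rw [h1] at h2
  have hm : MeasurableSet {ω : Cfg | P (As S ω)} := by
    have := H192.measurable_As S fun A => P A
    exact measurableSet_setOfPred.2 this
  have e1 : ∫ A : Cf S, (if P A.1 then (1 : ℝ) else 0) ∂(law S) =
      (law S).real {A : Cf S | P A.1} := by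
    have : (fun A : Cf S => if P A.1 then (1 : ℝ) else 0) =
        Set.indicator {A : Cf S | P A.1} 1 := by
      funext A
      simp [Set.indicator]
    rw [this, integral_indicator_one (MeasurableSet.of_discrete)]
  have e2 : ∫ ω : Cfg, (if P (As S ω) then (1 : ℝ) else 0) ∂μ =
      μ.real {ω : Cfg | P (As S ω)} := by
    have : (fun ω : Cfg => if P (As S ω) then (1 : ℝ) else 0) =
        Set.indicator {ω : Cfg | P (As S ω)} 1 := by
      funext ω
      simp [Set.indicator]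
    rw [this, integral_indicator_one hm]
  rw [e1, e2] at h2
  exact h2

theorem cfg_self (ω : Cfg) : cfg {e | ω (sq e) = true} = ω := by
  funext q
  rw [Bool.eq_iff_iff, H192.cfg_true, Set.mem_ofPred_eq, H192.sq_ed]

theorem OArm.armS {S : Finset (ℤ × ℤ)} {ω : Cfg} {x : ℤ × ℤ} {ρ R : ℤ}
    (h : OArm (As S ω) x ρ R) : ArmS (fi (ro x)) (2 * ρ) (2 * R) (SB ω) := by
  obtain ⟨u, v, h1, h2, h3⟩ := h
  have h4 : ReflTransGen (PStep (op ω)) (ro u) (ro v) := by
    refine h1.lift ro ?_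
    rintro a b ⟨⟨r, rfl⟩, hab⟩
    exact ⟨(H192.ro_dir a r).1, (H192.ro_dir a r).2, (H192.mem_As.1 hab).2⟩
  have h5 := H871.nc_of_pconn (H192.even_ro u) (H166.pconn_of h4)
  simp only [nm, Prod.fst_sub, Prod.snd_sub, max_le_iff, le_max_iff, abs_le, le_abs] at h2 h3
  refine ⟨fi (ro u), fi (ro v), h5.mono_ (fun _ hz => hz.1), ?_, ?_, ?_⟩ <;>
    simp only [fi, ro, abs_le, le_abs] <;> omega

theorem DArm.armS {S : Finset (ℤ × ℤ)} {ω : Cfg} {x : ℤ × ℤ} {ρ R : ℤ}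
    (h : DArm S (As S ω) x ρ R) : ArmS (fi (ro x)) (2 * ρ + 1) (2 * R - 1) (SB ω)ᶜ := by
  obtain ⟨f, g, h1, h2, h3⟩ := h
  have h4 : ReflTransGen (PStep (op ω)ᶜ) (rf f) (rf g) := by
    refine h1.lift rf ?_
    rintro a b ⟨v, r, e1, e2, h5, h6⟩
    have h7 : H192.fStep {e | ω (sq e) = true} a b := by
      refine ⟨v, r, e1, e2, fun h8 => h6 (H192.mem_As.2 ⟨h5, h8⟩)⟩
    have h8 := H192.fStep_iff.2 h7
    rwa [cfg_self] at h8
  have h5 := H871.ncd_of_pconn (by rw [← Int.not_even_iff_odd]; exact H192.odd_rf f)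
    (H166.pconn_of h4)
  simp only [nm, Prod.fst_sub, Prod.snd_sub, max_le_iff, le_max_iff, abs_le, le_abs] at h2 h3
  refine ⟨fi (rf f), fi (rf g), h5.mono_ (fun _ hz => hz.1), ?_, ?_, ?_⟩ <;>
    simp only [fi, ro, rf, abs_le, le_abs] <;> omega

/-- **One-arm bounds** for the percolation in the domain. -/
theorem arm_bound : ∃ C α : ℝ, 0 < C ∧ 0 < α ∧ ∀ (S : Finset (ℤ × ℤ)) (x : ℤ × ℤ) (ρ R : ℤ),
    1 ≤ ρ → ρ < R →
      (law S).real {A : Cf S | OArm A.1 x ρ R ∨ DArm S A.1 x ρ R} ≤ C * ((ρ : ℝ) / R) ^ α := by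
  obtain ⟨C, α, hC, hα, h⟩ := H871.arm_decay H871.fair_mu
  refine ⟨C + C * 3 ^ α, α, by positivity, hα, fun S x ρ R hρ hR => ?_⟩
  have hρ' : (1 : ℝ) ≤ ρ := by exact_mod_cast hρ
  have hR' : (ρ : ℝ) + 1 ≤ R := by exact_mod_cast hR
  rw [law_real S fun A => OArm A x ρ R ∨ DArm S A x ρ R]
  have h1 := (h (fi (ro x)) (2 * ρ) (2 * R) (by omega) (by omega)).1
  have h2 := (h (fi (ro x)) (2 * ρ + 1) (2 * R - 1) (by omega) (by omega)).2
  have e1 : (((2 * ρ : ℤ) : ℝ) / ((2 * R : ℤ) : ℝ)) = (ρ : ℝ) / R := by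
    push_cast
    rw [mul_div_mul_left _ _ (by norm_num)]
  have e2 : (((2 * ρ + 1 : ℤ) : ℝ) / ((2 * R - 1 : ℤ) : ℝ)) ^ α ≤ 3 ^ α * ((ρ : ℝ) / R) ^ α := by
    rw [← Real.mul_rpow (by norm_num) (by apply div_nonneg <;> linarith)]
    refine Real.rpow_le_rpow ?_ ?_ hα.le
    · push_cast
      apply div_nonneg <;> linarith
    · push_cast
      rw [← mul_div_assoc, div_le_div_iff₀ (by linarith) (by linarith)]
      nlinarith
  rw [e1] at h1
  calc μ.real {ω : Cfg | OArm (As S ω) x ρ R ∨ DArm S (As S ω) x ρ R}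
      ≤ μ.real ({ω | ArmS (fi (ro x)) (2 * ρ) (2 * R) (SB ω)} ∪
          {ω | ArmS (fi (ro x)) (2 * ρ + 1) (2 * R - 1) (SB ω)ᶜ}) := by
        refine measureReal_mono ?_
        rintro ω (hω | hω)
        · exact Or.inl hω.armS
        · exact Or.inr hω.armS
    _ ≤ _ := measureReal_union_le _ _
    _ ≤ C * ((ρ : ℝ) / R) ^ α + C * (3 ^ α * ((ρ : ℝ) / R) ^ α) :=
        add_le_add h1 (h2.trans (mul_le_mul_of_nonneg_left e2 hC.le))
    _ = _ := by ring

end Vale.Agent.P167.H174
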