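import Vale.Agent.P167.H174.End6
import Vale.Agent.P167.H411.Inputs6

/-!
# P167, block I_END: the input `I_fin6`
-/

open MeasureTheory Filter Topology Set
open scoped ENNReal

namespace Vale.Agent.P167.H174

open Vale.Agent.P167.E6 Vale.Agent.P167.E2
open Vale.Agent.P167.SLE (Cf law bq)
open Vale.Agent.P153.R2.C1 (reparam)

/-- **No return from the end point**, for the corner curves. -/
theorem i_fin6 : H411.I_fin6 := by
  intro Φ δ N k p S hA r hr q hq
  refine fin6 hA (fun n a => Xc (p n) (k n) (δ n) a.1) (fun n => 2 * δ n) ?_ ?_ r hr q hq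
  · simpa using hA.2.1.const_mul 2
  · intro n a c hc
    obtain ⟨hδ, h0k, hk, hp, hS⟩ := hA.1 n
    have hAS : a.1 ⊆ edges (S n) := Finset.mem_powerset.1 a.2
    have h1 := isInterface_unique hp hS hk hAS hc
    subst h1
    refine ⟨OrderIso.refl _, ?_⟩
    have h2 : reparam (crv (p n) (k n) (δ n) a.1) (OrderIso.refl _) =
        crv (p n) (k n) (δ n) a.1 := by
      ext t
      rfl
    rw [h2]
    exact dist_crv_Xc hp hS h0k hk hAS hδ.le

end Vale.Agent.P167.H174
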