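import Vale.Agent.P167.E6.Defs

/-!
# P167, block E0b, part 1: the winding number of a lattice polygon around a point outside

The sum of the logarithms of the quotients of successive vertices of a lattice polygon, seen from a
point which is in no enclosed face, is zero.
-/

open Finset

namespace Vale.Agent.P167.H174

open Vale.Agent.P167.E6

/-- the corner of the face `f` at which `f` is between the directions `r` and `r + 1` -/
def cor (f : ℤ × ℤ) (r : Fin 4) : ℤ × ℤ := f - ![(0, 0), (-1, 0), (-1, -1), (0, -1)] r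

/-- the neighbour of the face `f` across the edge from `cor f r` in the direction `r` -/
def nb (r : Fin 4) : ℤ × ℤ := ![(0, -1), (1, 0), (0, 1), (-1, 0)] r

theorem face_cor (f : ℤ × ℤ) (r : Fin 4) : face (cor f r) r = f := by
  unfold face cor; abel

theorem cor_face (v : ℤ × ℤ) (r : Fin 4) : cor (face v r) r = v := by
  unfold face cor; abel

theorem face_sub_one (v : ℤ × ℤ) (r : Fin 4) : face v (r - 1) = face v r + nb r := by
  unfold face nb
  fin_cases r <;> ext <;> simp

theorem cor_add_dir (f : ℤ × ℤ) (r : Fin 4) : cor f r + dir r = cor f (r + 1) := by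
  unfold cor dir
  fin_cases r <;> ext <;> simp

theorem cor_nb (f : ℤ × ℤ) (r : Fin 4) : cor (f + nb r) (r + 2) = cor f r + dir r := by
  unfold cor dir nb
  fin_cases r <;> ext <;> simp

theorem nb_nb (f : ℤ × ℤ) (r : Fin 4) : f + nb r + nb (r + 2) = f := by
  unfold nb
  fin_cases r <;> ext <;> simp

theorem dir_add_two (r : Fin 4) : dir r + dir (r + 2) = 0 := by
  unfold dir
  fin_cases r <;> ext <;> simp

theorem dir_injective : Function.Injective dir := by
  intro r s h
  unfold dir at h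
  fin_cases r <;> fin_cases s <;> simp at h ⊢

theorem log_div_of_re_pos {a b : ℂ} (ha : 0 < a.re) (hb : 0 < b.re) :
    Complex.log (b / a) = Complex.log b - Complex.log a := by
  have ha0 : a ≠ 0 := by rintro rfl; simp at ha
  have hb0 : b ≠ 0 := by rintro rfl; simp at hb
  have h1 : |a.arg| < Real.pi / 2 := Complex.abs_arg_lt_pi_div_two_iff.2 (Or.inl ha)
  have h2 : |b.arg| < Real.pi / 2 := Complex.abs_arg_lt_pi_div_two_iff.2 (Or.inl hb)
  rw [abs_lt] at h1 h2
  have h3 : a.arg ≠ Real.pi := by intro h; rw [h] at h1; linarith [Real.pi_pos, h1.2]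
  have h4 : (a⁻¹).arg = - a.arg := by rw [Complex.arg_inv, if_neg h3]
  rw [div_eq_mul_inv, (Complex.log_mul_eq_add_log_iff hb0 (inv_ne_zero ha0)).2,
    Complex.log_inv _ h3, sub_eq_add_neg]
  rw [h4]
  constructor
  · linarith
  · linarith

theorem div_mem_slitPlane {a b : ℂ} (ha : 0 < a.re) (hb : 0 < b.re) :
    b / a ∈ Complex.slitPlane := by
  have ha0 : a ≠ 0 := by rintro rfl; simp at ha
  have hb0 : b ≠ 0 := by rintro rfl; simp at hb
  rw [Complex.mem_slitPlane_iff_arg]
  refine ⟨fun h => ?_, div_ne_zero hb0 ha0⟩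
  have h1 : |a.arg| < Real.pi / 2 := Complex.abs_arg_lt_pi_div_two_iff.2 (Or.inl ha)
  have h2 : |b.arg| < Real.pi / 2 := Complex.abs_arg_lt_pi_div_two_iff.2 (Or.inl hb)
  rw [abs_lt] at h1 h2
  have h3 := congrArg Complex.im (log_div_of_re_pos ha hb)
  rw [Complex.sub_im, Complex.log_im, Complex.log_im, Complex.log_im, h] at h3
  linarith

/-- the closed face -/
def cface (f : ℤ × ℤ) : Set ℂ :=
  {z | (f.1 : ℝ) ≤ z.re ∧ z.re ≤ f.1 + 1 ∧ (f.2 : ℝ) ≤ z.im ∧ z.im ≤ f.2 + 1}

/-- the increment of the logarithm along a side of the face `f` -/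
noncomputable def J (ζ : ℂ) (f : ℤ × ℤ) (r : Fin 4) : ℂ :=
  Complex.log ((pt (cor f r + dir r) - ζ) / (pt (cor f r) - ζ))

theorem exists_dir {ζ : ℂ} {f : ℤ × ℤ} (h : ζ ∉ cface f) :
    ∃ u : ℂ, u ≠ 0 ∧ ∀ r, 0 < (u * (pt (cor f r) - ζ)).re := by
  have h' : ζ.re < f.1 ∨ (f.1 : ℝ) + 1 < ζ.re ∨ ζ.im < f.2 ∨ (f.2 : ℝ) + 1 < ζ.im := by
    by_contra hcon
    push Not at hcon
    exact h ⟨hcon.1, hcon.2.1, hcon.2.2.1, hcon.2.2.2⟩
  rcases h' with h | h | h | h
  · refine ⟨1, one_ne_zero, fun r => ?_⟩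
    fin_cases r <;> simp [cor, pt] <;> linarith
  · refine ⟨-1, by norm_num, fun r => ?_⟩
    fin_cases r <;> simp [cor, pt] <;> linarith
  · refine ⟨-Complex.I, by simp, fun r => ?_⟩
    fin_cases r <;> simp [cor, pt] <;> linarith
  · refine ⟨Complex.I, by simp, fun r => ?_⟩
    fin_cases r <;> simp [cor, pt] <;> linarith

theorem ratio_eq {u a b : ℂ} (hu : u ≠ 0) : b / a = (u * b) / (u * a) := by
  rw [mul_div_mul_left _ _ hu]

theorem J_sum {ζ : ℂ} {f : ℤ × ℤ} (h : ζ ∉ cface f) : ∑ r, J ζ f r = 0 := by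
  obtain ⟨u, hu, hpos⟩ := exists_dir h
  have e : ∀ r, J ζ f r = Complex.log (u * (pt (cor f (r + 1)) - ζ)) -
      Complex.log (u * (pt (cor f r) - ζ)) := fun r => by
    rw [J, cor_add_dir, ratio_eq hu, log_div_of_re_pos (hpos _) (hpos _)]
  rw [Fin.sum_univ_four, e, e, e, e]
  have h3 : (3 : Fin 4) + 1 = 0 := rfl
  have h2 : (2 : Fin 4) + 1 = 3 := rfl
  have h1 : (1 : Fin 4) + 1 = 2 := rfl
  have h0 : (0 : Fin 4) + 1 = 1 := rfl
  rw [h0, h1, h2, h3]
  ring

theorem J_nb {ζ : ℂ} {f : ℤ × ℤ} (h : ζ ∉ cface f) (r : Fin 4) :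
    J ζ (f + nb r) (r + 2) = - J ζ f r := by
  obtain ⟨u, hu, hpos⟩ := exists_dir h
  have e1 : cor (f + nb r) (r + 2) + dir (r + 2) = cor f r := by
    rw [cor_nb, add_assoc, dir_add_two, add_zero]
  rw [J, J, e1, cor_nb, ← Complex.log_inv, inv_div]
  intro harg
  have := div_mem_slitPlane (hpos r) (hpos (r + 1))
  rw [← ratio_eq hu, ← cor_add_dir, Complex.mem_slitPlane_iff_arg] at this
  exact this.1 harg

open Classical in
/-- The index of the polygon around a point outside is zero. -/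
theorem sum_log_eq_zero {n : ℕ} [NeZero n] {p : ZMod n → ℤ × ℤ} {S : Finset (ℤ × ℤ)}
    (hp : IsPolygon p) (hS : Encloses p S) {ζ : ℂ} (hζ : ∀ f ∈ S, ζ ∉ cface f) :
    ∑ i : ZMod n, Complex.log ((pt (p (i + 1)) - ζ) / (pt (p i) - ζ)) = 0 := by
  choose r hr using hp.2.2
  have h1 : ∑ i : ZMod n, Complex.log ((pt (p (i + 1)) - ζ) / (pt (p i) - ζ)) =
      ∑ x ∈ (S ×ˢ (univ : Finset (Fin 4))).filter (fun x => x.1 + nb x.2 ∉ S), J ζ x.1 x.2 := by
    refine Finset.sum_bij (fun i _ => (face (p i) (r i), r i)) ?_ ?_ ?_ ?_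
    · intro i _
      have h := (hS (p i) (r i)).1 ⟨i, rfl, hr i⟩
      rw [face_sub_one] at h
      simp only [mem_filter, mem_product, mem_univ, and_true]
      exact h
    · intro i _ j _ h
      have h2 : r i = r j := (Prod.ext_iff.1 h).2
      have h3 : face (p i) (r i) = face (p j) (r j) := (Prod.ext_iff.1 h).1
      apply hp.2.1
      rw [← cor_face (p i) (r i), h3, h2, cor_face]
    · rintro ⟨f, s⟩ hx
      simp only [mem_filter, mem_product, mem_univ, and_true] at hx
      obtain ⟨i, hi, hi'⟩ := (hS (cor f s) s).2 ⟨by rw [face_cor]; exact hx.1, by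
        rw [face_sub_one, face_cor]; exact hx.2⟩
      refine ⟨i, mem_univ _, ?_⟩
      have h4 : r i = s := by
        apply dir_injective
        have := hr i
        rw [hi', hi] at this
        exact (add_left_cancel this).symm
      rw [h4, hi, face_cor]
    · intro i _
      rw [J, cor_face, ← hr i]
  have h2 : ∑ x ∈ S ×ˢ (univ : Finset (Fin 4)), J ζ x.1 x.2 = 0 := by
    rw [Finset.sum_product]
    exact Finset.sum_eq_zero fun f hf => J_sum (hζ f hf)
  have h3 : ∑ x ∈ (S ×ˢ (univ : Finset (Fin 4))).filter (fun x => ¬ (x.1 + nb x.2 ∉ S)),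
      J ζ x.1 x.2 = 0 := by
    refine Finset.sum_involution (fun x _ => (x.1 + nb x.2, x.2 + 2)) ?_ ?_ ?_ ?_
    · rintro ⟨f, s⟩ hx
      simp only [mem_filter, mem_product, mem_univ, and_true, not_not] at hx
      rw [J_nb (hζ f hx.1), add_neg_cancel]
    · rintro ⟨f, s⟩ hx _ h
      have h5 : s + 2 = s := (Prod.ext_iff.1 h).2
      revert h5
      fin_cases s <;> decide
    · rintro ⟨f, s⟩ hx
      simp only [mem_filter, mem_product, mem_univ, and_true, not_not] at hx ⊢
      exact ⟨hx.2, by rw [nb_nb]; exact hx.1⟩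
    · rintro ⟨f, s⟩ hx
      ext1
      · exact nb_nb f s
      · show s + 2 + 2 = s
        fin_cases s <;> rfl
  have h4 := Finset.sum_filter_add_sum_filter_not (S ×ˢ (univ : Finset (Fin 4)))
    (fun x => x.1 + nb x.2 ∉ S) (fun x => J ζ x.1 x.2)
  rw [h3, add_zero, h2] at h4
  rw [h1]
  exact h4

end Vale.Agent.P167.H174
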