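import Vale.Agent.P167.H174.Wind
import Vale.Agent.P167.E2.Intf
import Vale.Agent.P167.H192.Dict2

/-!
# P167, block I_END: the trap at the end point (deterministic part)
-/

namespace Vale.Agent.P167.H174

open Vale.Agent.P167.E6 Vale.Agent.P167.E2

variable {n : ℕ} {p : ZMod n → ℤ × ℤ} {S : Finset (ℤ × ℤ)} {k : ℕ} {A : Finset (Sym2 (ℤ × ℤ))}

theorem fin4_6 (r : Fin 4) : r + 1 + 2 - 1 = r + 1 + 1 := by revert r; decide

/-- one step of an open chain -/
def Chn (ω : Set (Sym2 (ℤ × ℤ))) (u u' : ℤ × ℤ) : Prop :=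
  u' = u ∨ ((∃ r, u' = u + dir r) ∧ s(u, u') ∈ ω)

theorem Chn.symm {ω : Set (Sym2 (ℤ × ℤ))} {u u' : ℤ × ℤ} (h : Chn ω u u') : Chn ω u' u := by
  rcases h with rfl | ⟨⟨r, rfl⟩, h⟩
  · exact Or.inl rfl
  · exact Or.inr ⟨⟨r + 2, (dir_add_two' r u).symm⟩, by rwa [Sym2.eq_swap]⟩

theorem Chn.stp {ω : Set (Sym2 (ℤ × ℤ))} {u u' : ℤ × ℤ} (h : Chn ω u u') : Stp u u' := by
  rcases h with h | ⟨h, -⟩
  · exact Or.inl h
  · exact Or.inr h

/-- The flow of an open chain along a closed edge vanishes. -/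
theorem Chn.fl1 {ω : Set (Sym2 (ℤ × ℤ))} {u u' v w : ℤ × ℤ} (h : Chn ω u u') (hvw : v ≠ w)
    (hω : s(v, w) ∉ ω) : fl1 u u' v w = 0 := by
  unfold H174.fl1
  rw [if_neg, if_neg]
  · rintro ⟨rfl, rfl⟩
    rcases h with h | ⟨-, h⟩
    · exact hvw h
    · rw [Sym2.eq_swap] at h
      exact hω h
  · rintro ⟨rfl, rfl⟩
    rcases h with h | ⟨-, h⟩
    · exact hvw h.symm
    · exact hω h

/-- The arc of the polygon from `l` to `i`, then the walk `q`. -/
noncomputable def cw (p : ZMod n → ℤ × ℤ) (l i : ℕ) (q : ℕ → ℤ × ℤ) (t : ℕ) : ℤ × ℤ :=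
  if t ≤ i - l then p ((l + t : ℕ) : ZMod n) else q (t - (i - l))

theorem cw_arc {l i : ℕ} {q : ℕ → ℤ × ℤ} {t : ℕ} (h : t ≤ i - l) :
    cw p l i q t = p ((l + t : ℕ) : ZMod n) := if_pos h

theorem cw_chain {l i : ℕ} (hli : l ≤ i) {q : ℕ → ℤ × ℤ} (h0 : q 0 = p (i : ZMod n)) (t : ℕ) :
    cw p l i q (i - l + t) = q t := by
  unfold cw
  split_ifs with h
  · have : t = 0 := by omega
    subst this
    rw [h0]
    congr 2
    omega
  · congr 1
    omega

/-- flow of the arc -/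
theorem arc_flow (hp : IsPolygon p) {l i : ℕ} (hin : i < n) (v w : ℤ × ℤ) :
    (∀ j : ℕ, l ≤ j → j < i → p (j : ZMod n) = v → p ((j + 1 : ℕ) : ZMod n) = w →
      ∑ t ∈ Finset.range (i - l), fl1 (p ((l + t : ℕ) : ZMod n)) (p ((l + t + 1 : ℕ) : ZMod n)) v w
        = 1) ∧
    ((∀ j : ℕ, l ≤ j → j < i → ¬ (p (j : ZMod n) = v ∧ p ((j + 1 : ℕ) : ZMod n) = w)) →
      ∑ t ∈ Finset.range (i - l), fl1 (p ((l + t : ℕ) : ZMod n)) (p ((l + t + 1 : ℕ) : ZMod n)) v w
        ≠ 0 → ∃ j : ℕ, l ≤ j ∧ j < i ∧ p (j : ZMod n) = w ∧ p ((j + 1 : ℕ) : ZMod n) = v) ∧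
    ((∀ j : ℕ, l ≤ j → j < i → ¬ (p (j : ZMod n) = v ∧ p ((j + 1 : ℕ) : ZMod n) = w)) →
      (∀ j : ℕ, l ≤ j → j < i → ¬ (p (j : ZMod n) = w ∧ p ((j + 1 : ℕ) : ZMod n) = v)) →
      ∑ t ∈ Finset.range (i - l), fl1 (p ((l + t : ℕ) : ZMod n)) (p ((l + t + 1 : ℕ) : ZMod n)) v w
        = 0) := by
  have hn : n ≠ 0 := by omega
  have inj : ∀ a b : ℕ, a < n → b < n → p (a : ZMod n) = p (b : ZMod n) → a = b :=
    fun a b ha hb h => cast_inj hn ha hb (hp.2.1 h)
  have h3 : (∀ j : ℕ, l ≤ j → j < i → ¬ (p (j : ZMod n) = v ∧ p ((j + 1 : ℕ) : ZMod n) = w)) →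
      (∀ j : ℕ, l ≤ j → j < i → ¬ (p (j : ZMod n) = w ∧ p ((j + 1 : ℕ) : ZMod n) = v)) →
      ∑ t ∈ Finset.range (i - l), fl1 (p ((l + t : ℕ) : ZMod n)) (p ((l + t + 1 : ℕ) : ZMod n)) v w
        = 0 := by
    intro h1 h2
    refine Finset.sum_eq_zero fun t ht => ?_
    rw [Finset.mem_range] at ht
    unfold fl1
    rw [if_neg (h1 (l + t) (by omega) (by omega)), if_neg (h2 (l + t) (by omega) (by omega))]
  refine ⟨?_, ?_, h3⟩
  · intro j hj1 hj2 hv hw
    rw [Finset.sum_eq_single (j - l)]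
    · unfold fl1
      have e : l + (j - l) = j := by omega
      rw [e, if_pos ⟨hv, hw⟩]
    · intro t ht hne
      rw [Finset.mem_range] at ht
      unfold fl1
      rw [if_neg, if_neg]
      · rintro ⟨h1, h2⟩
        have h4 := inj (l + t) (j + 1) (by omega) (by omega) (h1.trans hw.symm)
        have h5 := inj (l + t + 1) j (by omega) (by omega) (h2.trans hv.symm)
        omega
      · rintro ⟨h1, -⟩
        have h4 := inj (l + t) j (by omega) (by omega) (h1.trans hv.symm)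
        omega
    · intro h
      rw [Finset.mem_range] at h
      omega
  · intro h1 h2
    by_contra h4
    push Not at h4
    exact h2 (h3 h1 fun j a b ⟨c, d⟩ => h4 j a b c d)

/-- the trap: the right face has winding number one, or the path is outside at a free vertex of
the arc -/
def Trp (p : ZMod n → ℤ × ℤ) (S : Finset (ℤ × ℤ)) (l k : ℕ) (W : ℤ × ℤ → ℤ) (c : Medial) : Prop :=
  (fc c ∈ S ∧ W (fc c) = 1) ∨ (fc c ∉ S ∧ ∃ j : ℕ, l ≤ j ∧ j < k ∧ c.1 = p (j : ZMod n))

theorem nat_of_zmod (hn : n ≠ 0) (i : ZMod n) : ∃ j : ℕ, j < n ∧ (j : ZMod n) = i := by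
  have : NeZero n := ⟨hn⟩
  exact ⟨i.val, i.val_lt, ZMod.natCast_zmod_val i⟩

theorem trap_step (hp : IsPolygon p) (hS : Encloses p S) (hA : A ⊆ edges S) {l i : ℕ}
    (hki : k ≤ i) (hin : i < n) {W : ℤ × ℤ → ℤ} (hext : ∀ f ∉ S, W f = 0)
    (hW : ∀ (v : ℤ × ℤ) (r : Fin 4), s(v, v + dir r) ∉ wiredOpen p k A →
      W (face v r) - W (face v (r - 1)) =
        ∑ t ∈ Finset.range (i - l), fl1 (p ((l + t : ℕ) : ZMod n)) (p ((l + t + 1 : ℕ) : ZMod n)) v
          (v + dir r)) {c : Medial} (hc : Trp p S l k W c)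
    (hne : next (wiredOpen p k A) c ≠ ce p k) : Trp p S l k W (next (wiredOpen p k A) c) := by
  have hn : n ≠ 0 := by omega
  have inj : ∀ a b : ℕ, a < n → b < n → p (a : ZMod n) = p (b : ZMod n) → a = b :=
    fun a b ha hb h => cast_inj hn ha hb (hp.2.1 h)
  have hω := wired_sub (k := k) hp hS hA
  obtain ⟨v, r⟩ := c
  -- the two sides of the edge ahead
  have hout : (face v (r + 1) ∈ S ∧ face v r ∉ S) ↔ ∃ j : ZMod n, p j = v ∧
      p (j + 1) = v + dir (r + 1) := by
    rw [hS v (r + 1), fin4_2]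
  have hin' : (face v r ∈ S ∧ face v (r + 1) ∉ S) ↔ ∃ j : ZMod n, p j = v + dir (r + 1) ∧
      p (j + 1) = v := by
    have h := hS (v + dir (r + 1)) (r + 1 + 2)
    have e1 : face (v + dir (r + 1)) (r + 1 + 2) = face v r := by rw [face_right, fin4_2]
    have e2 : face (v + dir (r + 1)) (r + 1 + 2 - 1) = face v (r + 1) := by
      rw [fin4_6, face_left]
    rw [e1, e2, dir_add_two'] at h
    exact h.symm
  by_cases ho : ahead (v, r) ∈ wiredOpen p k A
  · -- open edge
    have hfc := fc_next_open ho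
    rcases hc with ⟨h1, h2⟩ | ⟨h1, j, hj1, hj2, hj3⟩
    · left
      rw [hfc]
      exact ⟨h1, h2⟩
    · right
      rw [hfc]
      refine ⟨h1, ?_⟩
      rw [next_open ho] at hne ⊢
      have h3 := (mem_edges (r + 1)).1 (hω ho)
      rw [fin4_2] at h3
      have h4 : face v (r + 1) ∈ S := h3.resolve_right h1
      obtain ⟨j', h5, h6⟩ := hout.1 ⟨h4, h1⟩
      simp only at hj3 h5 h6 ⊢
      have h7 : j' = (j : ZMod n) := hp.2.1 (by rw [h5, hj3])
      subst h7
      have h8 : ((j + 1 : ℕ) : ZMod n) = (j : ZMod n) + 1 := by push_cast; rfl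
      by_cases hjk : j + 1 < k
      · exact ⟨j + 1, by omega, hjk, by rw [h8, h6]⟩
      · exfalso
        apply hne
        have h9 : k = j + 1 := by omega
        subst h9
        unfold ce
        simp only at h6 ⊢
        have h10 : ro p (j : ZMod n) = r + 1 := (ro_unique hp (by rw [h6, h5])).symm
        rw [h8, ri, add_sub_cancel_right, h10, h6, fin4_4]
  · -- closed edge
    have hnx := next_closed ho
    have hjmp := hW v (r + 1) ho
    rw [fin4_2] at hjmp
    have hfc : fc (next (wiredOpen p k A) (v, r)) = face v (r + 1) := by rw [hnx]; rfl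
    obtain ⟨f1, f2, f3⟩ := arc_flow hp (l := l) hin v (v + dir (r + 1))
    have hnat : ∀ j : ℕ, ((j + 1 : ℕ) : ZMod n) = (j : ZMod n) + 1 := fun j => by push_cast; rfl
    rcases hc with ⟨h1, h2⟩ | ⟨h1, j, hj1, hj2, hj3⟩
    · change face v r ∈ S at h1
      change W (face v r) = 1 at h2
      have g1 : ∀ j : ℕ, l ≤ j → j < i → ¬ (p (j : ZMod n) = v ∧
          p ((j + 1 : ℕ) : ZMod n) = v + dir (r + 1)) := by
        rintro j - - ⟨a, b⟩
        exact (hout.2 ⟨j, a, by rw [← hnat, b]⟩).2 h1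
      by_cases h3 : face v (r + 1) ∈ S
      · left
        rw [hfc]
        refine ⟨h3, ?_⟩
        have h4 := f3 g1 (by
          rintro j - - ⟨a, b⟩
          exact (hin'.2 ⟨j, a, by rw [← hnat, b]⟩).2 h3)
        rw [h4] at hjmp
        linarith
      · right
        rw [hfc]
        refine ⟨h3, ?_⟩
        have h4 := hext _ h3
        obtain ⟨j, a, b, c, d⟩ := f2 g1 (by rw [← hjmp, h4, h2]; norm_num)
        have hjk : j < k := by
          by_contra hcon
          exact ho (Or.inr ⟨j, by omega, by omega, by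
            unfold ahead
            simp only
            rw [← c, ← d, hnat, Sym2.eq_swap]⟩)
        by_cases hjk' : j + 1 < k
        · exact ⟨j + 1, by omega, hjk', by rw [hnx, d]⟩
        · exfalso
          apply hne
          have h9 : k = j + 1 := by omega
          subst h9
          rw [hnx]
          unfold ce
          rw [d]
          have h10 : r + 1 = ri p ((j + 1 : ℕ) : ZMod n) := by
            refine ri_unique hp ?_
            rw [d, hnat, add_sub_cancel_right, c]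
          rw [h10]
    · change face v r ∉ S at h1
      change v = p (j : ZMod n) at hj3
      by_cases h3 : face v (r + 1) ∈ S
      · left
        rw [hfc]
        refine ⟨h3, ?_⟩
        obtain ⟨j', h5, h6⟩ := hout.1 ⟨h3, h1⟩
        have h7 : j' = (j : ZMod n) := hp.2.1 (by rw [h5, hj3])
        subst h7
        have h8 := f1 j hj1 (by omega) h5 (by rw [hnat, h6])
        rw [h8, hext _ h1] at hjmp
        linarith
      · right
        rw [hfc]
        exact ⟨h3, j, hj1, hj2, by rw [hnx, hj3]⟩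

/-- **The trap.** If an open chain joins the wired vertex `p i` to the free vertex `p l`, and the
path is outside of the domain at `p l` at the time `u`, then later it stays near the closed walk. -/
theorem trap (hp : IsPolygon p) (hS : Encloses p S) (hk : k < n) (hA : A ⊆ edges S) {l i : ℕ}
    (hlk : l < k) (hki : k ≤ i) (hin : i < n) {q : ℕ → ℤ × ℤ} {L : ℕ}
    (hq0 : q 0 = p (i : ZMod n)) (hqL : q L = p (l : ZMod n))
    (hq : ∀ t < L, Chn (wiredOpen p k A) (q t) (q (t + 1))) {x1 x2 y1 y2 : ℤ}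
    (hb1 : ∀ j : ℕ, l ≤ j → j ≤ i → x1 ≤ (p (j : ZMod n)).1 ∧ (p (j : ZMod n)).1 ≤ x2 ∧
      y1 ≤ (p (j : ZMod n)).2 ∧ (p (j : ZMod n)).2 ≤ y2)
    (hb2 : ∀ t ≤ L, x1 ≤ (q t).1 ∧ (q t).1 ≤ x2 ∧ y1 ≤ (q t).2 ∧ (q t).2 ≤ y2) {u : ℕ}
    (hu : (run p k A u).1 = p (l : ZMod n)) (hue : fc (run p k A u) ∉ S) {t : ℕ} (hut : u ≤ t)
    (ht : t < len p k A) :
    x1 - 1 ≤ (run p k A t).1.1 ∧ (run p k A t).1.1 ≤ x2 + 1 ∧ y1 - 1 ≤ (run p k A t).1.2 ∧
      (run p k A t).1.2 ≤ y2 + 1 := by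
  have hn : n ≠ 0 := by omega
  have hω := wired_sub (k := k) hp hS hA
  have hli : l ≤ i := by omega
  set Q := cw p l i q with hQ
  set M := i - l + L with hM
  have hQa : ∀ t, t ≤ i - l → Q t = p ((l + t : ℕ) : ZMod n) := fun t h => cw_arc h
  have hQc : ∀ t, Q (i - l + t) = q t := fun t => cw_chain hli hq0 t
  have hstp : ∀ t < M, Stp (Q t) (Q (t + 1)) := by
    intro t ht
    by_cases h : t < i - l
    · rw [hQa t h.le, hQa (t + 1) h]
      right
      have e : ((l + (t + 1) : ℕ) : ZMod n) = ((l + t : ℕ) : ZMod n) + 1 := by push_cast; ring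
      rw [e]
      exact ⟨_, ro_spec hp _⟩
    · obtain ⟨t', rfl⟩ : ∃ t', t = i - l + t' := ⟨t - (i - l), by omega⟩
      rw [add_assoc, hQc, hQc]
      exact (hq t' (by omega)).stp
  have hclosed : Q M = Q 0 := by
    rw [hM, hQc, hQa 0 (Nat.zero_le _), hqL, add_zero]
  have hbox : ∀ t ≤ M, x1 ≤ (Q t).1 ∧ (Q t).1 ≤ x2 ∧ y1 ≤ (Q t).2 ∧ (Q t).2 ≤ y2 := by
    intro t ht
    by_cases h : t ≤ i - l
    · rw [hQa t h]
      exact hb1 _ (by omega) (by omega)
    · obtain ⟨t', rfl⟩ : ∃ t', t = i - l + t' := ⟨t - (i - l), by omega⟩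
      rw [hQc]
      exact hb2 t' (by omega)
  have hfl : ∀ v w : ℤ × ℤ, Fl Q M v w =
      ∑ t ∈ Finset.range (i - l), fl1 (p ((l + t : ℕ) : ZMod n)) (p ((l + t + 1 : ℕ) : ZMod n)) v w +
      ∑ t ∈ Finset.range L, fl1 (q t) (q (t + 1)) v w := by
    intro v w
    unfold Fl
    rw [hM, Finset.sum_range_add]
    congr 1
    · refine Finset.sum_congr rfl fun t ht => ?_
      rw [Finset.mem_range] at ht
      rw [hQa t ht.le, hQa (t + 1) ht]
      rfl
    · refine Finset.sum_congr rfl fun t _ => ?_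
      rw [add_assoc, hQc, hQc]
  set W := Wn Q M with hWd
  have hchain0 : ∀ (v : ℤ × ℤ) (r : Fin 4), s(v, v + dir r) ∉ wiredOpen p k A →
      ∑ t ∈ Finset.range L, fl1 (q t) (q (t + 1)) v (v + dir r) = 0 := by
    intro v r h
    refine Finset.sum_eq_zero fun t ht => ?_
    exact (hq t (Finset.mem_range.1 ht)).fl1 (add_dir_ne v r).symm h
  have hWj : ∀ (v : ℤ × ℤ) (r : Fin 4), s(v, v + dir r) ∉ wiredOpen p k A →
      W (face v r) - W (face v (r - 1)) =
        ∑ t ∈ Finset.range (i - l), fl1 (p ((l + t : ℕ) : ZMod n)) (p ((l + t + 1 : ℕ) : ZMod n)) v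
          (v + dir r) := by
    intro v r h
    rw [hWd, Wn_jump hstp hclosed, hfl, hchain0 v r h, add_zero]
  have hzero : ∀ f : ℤ × ℤ, ¬ (x1 ≤ f.1 ∧ f.1 < x2 ∧ y1 ≤ f.2 ∧ f.2 < y2) → W f = 0 :=
    fun f hf => Wn_zero hstp hclosed hbox hf
  have hext : ∀ f ∉ S, W f = 0 := by
    intro f hf
    refine ext_zero hp hS (W := W) ?_ (B := |x1| + |x2| + 1) ?_ hf
    · intro v r h1 h2
      have h3 : s(v, v + dir r) ∉ edges S := by
        rw [mem_edges]
        tauto
      have h4 := hWj v r fun h => h3 (hω h)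
      obtain ⟨-, -, f3⟩ := arc_flow hp (l := l) hin v (v + dir r)
      rw [f3] at h4
      · linarith
      · rintro j - - ⟨a, b⟩
        apply h3
        have := p_edge hp hS (j : ZMod n)
        rw [← b, ← a]
        push_cast
        exact this
      · rintro j - - ⟨a, b⟩
        apply h3
        have := p_edge hp hS (j : ZMod n)
        rw [← a, ← b, Sym2.eq_swap]
        push_cast
        exact this
    · intro f hf
      apply hzero
      rintro ⟨h1, h2, -, -⟩
      rw [Int.abs_eq_natAbs, Int.abs_eq_natAbs, Int.abs_eq_natAbs] at hf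
      omega
  have key : ∀ s : ℕ, u + s < len p k A → Trp p S l k W (run p k A (u + s)) := by
    intro s
    induction s with
    | zero =>
      intro _
      exact Or.inr ⟨hue, l, le_rfl, hlk, hu⟩
    | succ s ih =>
      intro hs
      have h1 := ih (by omega)
      have h2 := trap_step hp hS hA hki hin hext hWj h1
      rw [← run_succ] at h2
      exact h2 (run_ne hp hS hk hA (by omega) (by omega))
  have h1 := key (t - u) (by omega)
  have e : u + (t - u) = t := by omega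
  rw [e] at h1
  generalize run p k A t = c at h1
  obtain ⟨v, r⟩ := c
  rcases h1 with ⟨-, h2⟩ | ⟨-, j, hj1, hj2, hj3⟩
  · have h3 : x1 ≤ (face v r).1 ∧ (face v r).1 < x2 ∧ y1 ≤ (face v r).2 ∧ (face v r).2 < y2 := by
      by_contra hcon
      have h4 := hzero _ hcon
      change W (face v r) = 1 at h2
      rw [h4] at h2
      norm_num at h2
    clear h2
    revert h3
    simp only
    revert r
    refine forall4 ?_ ?_ ?_ ?_ <;> simp only [face0, face1, face2, face3] <;> omega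
  · have h3 := hb1 j hj1 (by omega)
    simp only at hj3 ⊢
    rw [hj3]
    omega

end Vale.Agent.P167.H174
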