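import Vale.Agent.P167.E2.Path

/-!
# P167, block I_END: winding numbers of closed lattice walks around the faces

A walk is `q : ℕ → ℤ × ℤ` (up to time `M`), every step stays or goes to a neighbour. `Wn q M f` is
the signed number of the vertical steps in the row of `f`, to the right of `f`.
-/

namespace Vale.Agent.P167.H174

open Vale.Agent.P167.E6 Vale.Agent.P167.E2

/-- contribution of one step to the winding number around `f` -/
def cr1 (u u' f : ℤ × ℤ) : ℤ :=
  if u.2 = f.2 ∧ u'.2 = f.2 + 1 ∧ f.1 < u.1 then 1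
  else if u'.2 = f.2 ∧ u.2 = f.2 + 1 ∧ f.1 < u.1 then -1 else 0

/-- contribution of one step to the flow along the edge `v → w` -/
def fl1 (u u' v w : ℤ × ℤ) : ℤ :=
  if u = v ∧ u' = w then 1 else if u = w ∧ u' = v then -1 else 0

/-- a step of a walk -/
def Stp (u u' : ℤ × ℤ) : Prop := u' = u ∨ ∃ r, u' = u + dir r

/-- the winding number around the face `f` -/
def Wn (q : ℕ → ℤ × ℤ) (M : ℕ) (f : ℤ × ℤ) : ℤ := ∑ i ∈ Finset.range M, cr1 (q i) (q (i + 1)) f

/-- the flow along the edge `v → w` -/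
def Fl (q : ℕ → ℤ × ℤ) (M : ℕ) (v w : ℤ × ℤ) : ℤ := ∑ i ∈ Finset.range M, fl1 (q i) (q (i + 1)) v w

theorem Stp.cases {u u' : ℤ × ℤ} (h : Stp u u') :
    (u'.1 = u.1 ∧ u'.2 = u.2) ∨ (u'.1 = u.1 + 1 ∧ u'.2 = u.2) ∨ (u'.1 = u.1 ∧ u'.2 = u.2 + 1) ∨
      (u'.1 = u.1 - 1 ∧ u'.2 = u.2) ∨ (u'.1 = u.1 ∧ u'.2 = u.2 - 1) := by
  rcases h with rfl | ⟨r, rfl⟩
  · exact Or.inl ⟨rfl, rfl⟩
  · revert r
    refine forall4 ?_ ?_ ?_ ?_
    · right; left; simp [dir0]
    · right; right; left; simp [dir1]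
    · right; right; right; left; simp [dir2]; ring
    · right; right; right; right; simp [dir3]; ring

theorem Stp.symm {u u' : ℤ × ℤ} (h : Stp u u') : Stp u' u := by
  rcases h with rfl | ⟨r, rfl⟩
  · exact Or.inl rfl
  · exact Or.inr ⟨r + 2, (dir_add_two' r u).symm⟩

/-- the defect for a horizontal edge -/
def dE (x y : ℤ) (u : ℤ × ℤ) : ℤ := if u.2 = y ∧ x < u.1 then 1 else 0

theorem jump1 {u u' : ℤ × ℤ} (h : Stp u u') (v : ℤ × ℤ) :
    cr1 u u' (v.1 - 1, v.2) - cr1 u u' (v.1, v.2) = fl1 u u' v (v.1, v.2 + 1) := by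
  obtain ⟨a, b⟩ := u
  obtain ⟨c, d⟩ := u'
  obtain ⟨x, y⟩ := v
  have := h.cases
  simp only [cr1, fl1, Prod.mk.injEq] at this ⊢
  split_ifs <;> omega

theorem jump0 {u u' : ℤ × ℤ} (h : Stp u u') (v : ℤ × ℤ) :
    cr1 u u' (v.1, v.2) - cr1 u u' (v.1, v.2 - 1) =
      fl1 u u' v (v.1 + 1, v.2) + dE v.1 v.2 u - dE v.1 v.2 u' := by
  obtain ⟨a, b⟩ := u
  obtain ⟨c, d⟩ := u'
  obtain ⟨x, y⟩ := v
  have := h.cases
  simp only [cr1, fl1, dE, Prod.mk.injEq] at this ⊢
  split_ifs <;> omega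

theorem sum_tel (F : ℤ × ℤ → ℤ) (q : ℕ → ℤ × ℤ) (M : ℕ) :
    ∑ i ∈ Finset.range M, (F (q i) - F (q (i + 1))) = F (q 0) - F (q M) := by
  induction M with
  | zero => simp
  | succ M ih => rw [Finset.sum_range_succ, ih]; ring

theorem fl1_swap (u u' v w : ℤ × ℤ) (h : v ≠ w) : fl1 u u' w v = - fl1 u u' v w := by
  unfold fl1
  split_ifs <;> simp_all

variable {q : ℕ → ℤ × ℤ} {M : ℕ}

theorem Fl_swap (v w : ℤ × ℤ) (h : v ≠ w) : Fl q M w v = - Fl q M v w := by
  unfold Fl
  rw [← Finset.sum_neg_distrib]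
  exact Finset.sum_congr rfl fun i _ => fl1_swap _ _ _ _ h

theorem Wn_jump1 (hq : ∀ i < M, Stp (q i) (q (i + 1))) (v : ℤ × ℤ) :
    Wn q M (v.1 - 1, v.2) - Wn q M (v.1, v.2) = Fl q M v (v.1, v.2 + 1) := by
  unfold Wn Fl
  rw [← Finset.sum_sub_distrib]
  exact Finset.sum_congr rfl fun i hi => jump1 (hq i (Finset.mem_range.1 hi)) v

theorem Wn_jump0 (hq : ∀ i < M, Stp (q i) (q (i + 1))) (hc : q M = q 0) (v : ℤ × ℤ) :
    Wn q M (v.1, v.2) - Wn q M (v.1, v.2 - 1) = Fl q M v (v.1 + 1, v.2) := by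
  have h1 : Wn q M (v.1, v.2) - Wn q M (v.1, v.2 - 1) = Fl q M v (v.1 + 1, v.2) +
      ∑ i ∈ Finset.range M, (dE v.1 v.2 (q i) - dE v.1 v.2 (q (i + 1))) := by
    unfold Wn Fl
    rw [← Finset.sum_sub_distrib, ← Finset.sum_add_distrib]
    refine Finset.sum_congr rfl fun i hi => ?_
    have := jump0 (hq i (Finset.mem_range.1 hi)) v
    linarith
  rw [h1, sum_tel, hc]
  ring

/-- **The jump of the winding number** across an edge is the flow along the edge. -/
theorem Wn_jump (hq : ∀ i < M, Stp (q i) (q (i + 1))) (hc : q M = q 0) (v : ℤ × ℤ) (r : Fin 4) :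
    Wn q M (face v r) - Wn q M (face v (r - 1)) = Fl q M v (v + dir r) := by
  revert r
  refine forall4 ?_ ?_ ?_ ?_
  · rw [f4_0m, face0, face3, dir0]
    have := Wn_jump0 hq hc v
    rw [this]
    congr 1
    ext <;> simp
  · rw [f4_1m, face0, face1, dir1]
    have := Wn_jump1 hq v
    rw [this]
    congr 1
    ext <;> simp
  · rw [f4_2m, face1, face2, dir2]
    have h1 := Wn_jump0 hq hc (v + (-1, 0))
    rw [Fl_swap _ _ (by intro h; have := congrArg Prod.fst h; simp at this)] at h1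
    have e1 : ((v + (-1, 0)).1 + 1, (v + (-1, 0)).2) = v := by ext <;> simp
    have e2 : ((v + (-1, 0)).1, (v + (-1, 0)).2) = (v.1 - 1, v.2) := by
      ext
      · simp; ring
      · simp
    have e3 : ((v + (-1, 0)).1, (v + (-1, 0)).2 - 1) = (v.1 - 1, v.2 - 1) := by
      ext
      · simp; ring
      · simp
    rw [e1, e2, e3] at h1
    linarith
  · rw [f4_3m, face2, face3, dir3]
    have h1 := Wn_jump1 hq (v + (0, -1))
    rw [Fl_swap _ _ (by intro h; have := congrArg Prod.snd h; simp at this)] at h1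
    have e1 : ((v + (0, -1)).1, (v + (0, -1)).2 + 1) = v := by ext <;> simp
    have e2 : ((v + (0, -1)).1, (v + (0, -1)).2) = (v.1, v.2 - 1) := by
      ext
      · simp
      · simp; ring
    have e3 : ((v + (0, -1)).1 - 1, (v + (0, -1)).2) = (v.1 - 1, v.2 - 1) := by
      ext
      · simp
      · simp; ring
    rw [e1, e2, e3] at h1
    linarith

/-- The winding number vanishes outside of the bounding box. -/
theorem Wn_zero (hq : ∀ i < M, Stp (q i) (q (i + 1))) (hc : q M = q 0) {x1 x2 y1 y2 : ℤ}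
    (hb : ∀ i ≤ M, x1 ≤ (q i).1 ∧ (q i).1 ≤ x2 ∧ y1 ≤ (q i).2 ∧ (q i).2 ≤ y2) {f : ℤ × ℤ}
    (hf : ¬ (x1 ≤ f.1 ∧ f.1 < x2 ∧ y1 ≤ f.2 ∧ f.2 < y2)) : Wn q M f = 0 := by
  by_cases h1 : f.1 < x1
  · have h2 : Wn q M f = ∑ i ∈ Finset.range M,
        ((if (q i).2 ≤ f.2 then (1 : ℤ) else 0) - (if (q (i + 1)).2 ≤ f.2 then 1 else 0)) := by
      unfold Wn
      refine Finset.sum_congr rfl fun i hi => ?_
      have hi' := Finset.mem_range.1 hi
      have h3 := (hq i hi').cases
      have h4 := hb i hi'.le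
      unfold cr1
      split_ifs <;> omega
    rw [h2, sum_tel (fun z => if z.2 ≤ f.2 then (1 : ℤ) else 0), hc, sub_self]
  · unfold Wn
    refine Finset.sum_eq_zero fun i hi => ?_
    have hi' := Finset.mem_range.1 hi
    have h4 := hb i hi'.le
    have h5 := hb (i + 1) hi'
    unfold cr1
    rw [if_neg (by omega), if_neg (by omega)]

/-! ### Exterior faces -/

section Ext

variable {n : ℕ} {p : ZMod n → ℤ × ℤ} {S : Finset (ℤ × ℤ)}

theorem fin4_ofNat (b : Fin 4) (t : ℕ) : b + Fin.ofNat 4 (t + 1) - 1 = b + Fin.ofNat 4 t := by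
  have h : Fin.ofNat 4 (t + 1) = Fin.ofNat 4 t + 1 := by
    apply Fin.ext
    simp [Fin.ofNat, Fin.val_add]
  rw [h, ← add_assoc, add_sub_cancel_right]

theorem ofNat_val_aux (a b : Fin 4) (t : ℕ) (h : t < (a - b).val) :
    ((b + Fin.ofNat 4 t) - b).val < (a - b).val := by
  have h4 : t < 4 := lt_trans h (a - b).isLt
  interval_cases t <;> revert a b <;> decide

/-- A function of the faces which is constant across the edges outside of the domain and vanishes
far away vanishes on all faces outside of the domain. -/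
theorem ext_zero (hp : IsPolygon p) (hS : Encloses p S) {W : ℤ × ℤ → ℤ}
    (hW : ∀ (v : ℤ × ℤ) (r : Fin 4), face v r ∉ S → face v (r - 1) ∉ S →
      W (face v r) = W (face v (r - 1)))
    {B : ℤ} (hB : ∀ f : ℤ × ℤ, B ≤ |f.1| → W f = 0) {f : ℤ × ℤ} (hf : f ∉ S) : W f = 0 := by
  have hn : n ≠ 0 := by have := hp.1; omega
  have : NeZero n := ⟨hn⟩
  -- the right faces of the edges of the polygon
  have hR1 : ∀ i : ZMod n, W (face (p i) (ri p i)) = W (face (p i) (ro p i - 1)) := by
    intro i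
    have key : ∀ t : ℕ, t < (ro p i - ri p i).val →
        W (face (p i) (ri p i + Fin.ofNat 4 t)) = W (face (p i) (ri p i)) := by
      intro t
      induction t with
      | zero =>
        intro _
        congr 2
        show ri p i + 0 = ri p i
        rw [add_zero]
      | succ t ih =>
        intro ht
        rw [← ih (by omega)]
        have h1 := (ext_iff hp hS (i := i) (r := ri p i + Fin.ofNat 4 (t + 1))).2
          (ofNat_val_aux _ _ _ ht)
        have h2 := (ext_iff hp hS (i := i) (r := ri p i + Fin.ofNat 4 t)).2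
          (ofNat_val_aux _ _ _ (by omega))
        have h3 := hW (p i) (ri p i + Fin.ofNat 4 (t + 1)) h1 (by rw [fin4_ofNat]; exact h2)
        rw [h3, fin4_ofNat]
    have h0 : ro p i ≠ ri p i := (ri_ne_ro hp hS).symm
    have h1 : 0 < (ro p i - ri p i).val := by
      rw [Nat.pos_iff_ne_zero]
      intro h
      exact h0 (sub_eq_zero.1 (Fin.ext h))
    have h2 := key ((ro p i - ri p i).val - 1) (by omega)
    rw [cast_aux _ _ h0] at h2
    exact h2.symm
  have hR2 : ∀ i : ZMod n, W (face (p (i + 1)) (ro p (i + 1) - 1)) =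
      W (face (p i) (ro p i - 1)) := by
    intro i
    rw [← hR1 (i + 1)]
    have h1 : ri p (i + 1) = ro p i + 2 := by rw [ri, add_sub_cancel_right]
    rw [h1, ro_spec hp i, face_right]
  have hR3 : ∀ (i : ZMod n) (j : ℕ), W (face (p (i + j)) (ro p (i + j) - 1)) =
      W (face (p i) (ro p i - 1)) := by
    intro i j
    induction j with
    | zero => simp
    | succ j ih =>
      rw [← ih, ← hR2 (i + j)]
      push_cast
      rw [add_assoc]
  have hR4 : ∀ i j : ZMod n, W (face (p i) (ro p i - 1)) = W (face (p j) (ro p j - 1)) := by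
    intro i j
    have h := hR3 j (i - j).val
    rw [ZMod.natCast_val, ZMod.cast_id, add_sub_cancel] at h
    exact h
  -- horizontal neighbours
  have hor : ∀ x y : ℤ, (x, y) ∉ S → (x + 1, y) ∉ S → W (x + 1, y) = W (x, y) := by
    intro x y h1 h2
    have h3 := hW (x + 1, y) 1 (by rw [face1]; simpa using h1) (by rw [f4_1m, face0]; exact h2)
    rw [face1, f4_1m, face0] at h3
    simpa using h3.symm
  -- from an edge of the polygon, going up: left face in the domain
  have hup : ∀ x y : ℤ, (x, y) ∈ S → (x + 1, y) ∉ S → ∃ i : ZMod n,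
      W (x + 1, y) = W (face (p i) (ro p i - 1)) := by
    intro x y h1 h2
    obtain ⟨i, h3, h4⟩ := (hS (x + 1, y) 1).2 ⟨by rw [face1]; simpa using h1,
      by rw [f4_1m, face0]; exact h2⟩
    refine ⟨i, ?_⟩
    rw [← h3] at h4
    rw [← ro_unique hp h4, h3, f4_1m, face0]
  have hdn : ∀ x y : ℤ, (x, y) ∉ S → (x + 1, y) ∈ S → ∃ i : ZMod n,
      W (x, y) = W (face (p i) (ro p i - 1)) := by
    intro x y h1 h2
    obtain ⟨i, h3, h4⟩ := (hS (x + 1, y + 1) 3).2 ⟨by rw [face3]; simpa using h2,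
      by rw [f4_3m, face2]; simpa using h1⟩
    refine ⟨i, ?_⟩
    rw [← h3] at h4
    rw [← ro_unique hp h4, h3, f4_3m, face2]
    congr 1
    ext <;> simp
  -- one edge of the polygon has winding number zero outside
  have h0 : ∃ i : ZMod n, W (face (p i) (ro p i - 1)) = 0 := by
    have hne : S.Nonempty := ⟨_, (enc_out hp hS (i := 0)).1⟩
    obtain ⟨g, hg, hmax⟩ := S.exists_max_image (fun f => f.1) hne
    have hout : ∀ t : ℕ, (g.1 + 1 + t, g.2) ∉ S := by
      intro t h
      have := hmax _ h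
      simp only at this
      omega
    have hcst : ∀ t : ℕ, W (g.1 + 1 + t, g.2) = W (g.1 + 1, g.2) := by
      intro t
      induction t with
      | zero => simp
      | succ t ih =>
        have h1 := hor (g.1 + 1 + t) g.2 (hout t) (by
          have := hout (t + 1)
          push_cast at this
          rwa [← add_assoc] at this)
        push_cast
        rw [← add_assoc, h1, ih]
    obtain ⟨i, hi⟩ := hup g.1 g.2 hg (by simpa using hout 0)
    refine ⟨i, ?_⟩
    rw [← hi, ← hcst (B.toNat + g.1.natAbs)]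
    apply hB
    have h1 : B ≤ (B.toNat : ℤ) := Int.self_le_toNat B
    show B ≤ |g.1 + 1 + ((B.toNat + g.1.natAbs : ℕ) : ℤ)|
    rw [Int.abs_eq_natAbs]
    omega
  obtain ⟨i0, hi0⟩ := h0
  -- go left from `f`
  obtain ⟨x, y⟩ := f
  have key : ∀ t : ℕ, (∃ i : ZMod n, W (x, y) = W (face (p i) (ro p i - 1))) ∨
      ((x - t, y) ∉ S ∧ W (x, y) = W (x - t, y)) := by
    intro t
    induction t with
    | zero => right; simpa using hf
    | succ t ih =>
      rcases ih with h | ⟨h1, h2⟩
      · exact Or.inl h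
      · by_cases h3 : (x - t - 1, y) ∈ S
        · left
          obtain ⟨i, hi⟩ := hup (x - t - 1) y h3 (by simpa using h1)
          refine ⟨i, ?_⟩
          rw [h2, ← hi]
          congr 1
          ext <;> simp
        · right
          have e : (x - ((t + 1 : ℕ) : ℤ), y) = (x - t - 1, y) := by
            push_cast
            ext
            · simp only; ring
            · rfl
          rw [e]
          refine ⟨h3, ?_⟩
          have h4 := hor (x - t - 1) y h3 (by simpa using h1)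
          rw [h2, ← h4]
          congr 1
          ext <;> simp
  rcases key (B.toNat + x.natAbs) with ⟨i, hi⟩ | ⟨-, h⟩
  · rw [hi, hR4 i i0, hi0]
  · rw [h]
    apply hB
    have h1 : B ≤ (B.toNat : ℤ) := Int.self_le_toNat B
    show B ≤ |x - ((B.toNat + x.natAbs : ℕ) : ℤ)|
    rw [Int.abs_eq_natAbs]
    omega

end Ext

end Vale.Agent.P167.H174
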